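import Mathlib

/-!
# P158: first-passage percolation on the square lattice (definitions used by the statement)

Weights are indexed by unordered pairs of lattice points; only the pairs of nearest neighbours
(the edges of `Z2`) are ever used.  A finite nearest-neighbour path is a walk of `Z2`.
-/

open MeasureTheory
open scoped NNReal

namespace Vale.Agent.H43.P158

/-- The square lattice: two points of `ℤ × ℤ` are adjacent when they differ by one unit step. -/
def Z2 : SimpleGraph (ℤ × ℤ) where
  Adj u v := |u.1 - v.1| + |u.2 - v.2| = 1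
  symm := ⟨fun u v h => by
    rw [abs_sub_comm v.1 u.1, abs_sub_comm v.2 u.2]
    exact h⟩
  loopless := ⟨fun u h => by simp at h⟩

/-- The weight of a finite nearest-neighbour path: the sum of the weights of its edges. -/
noncomputable def wt (ω : Sym2 (ℤ × ℤ) → ℝ≥0) {x y : ℤ × ℤ} (p : Z2.Walk x y) : ℝ≥0 :=
  (p.edges.map ω).sum

/-- The passage time `T(x, y)`: the infimum of the weights of the finite nearest-neighbour paths
from `x` to `y`. -/
noncomputable def T (ω : Sym2 (ℤ × ℤ) → ℝ≥0) (x y : ℤ × ℤ) : ℝ≥0 :=
  ⨅ p : Z2.Walk x y, wt ω p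

/-- `v` is a bigeodesic: pairwise distinct vertices, consecutive ones adjacent, and every finite
piece has weight equal to the passage time between its ends. -/
def IsBigeodesic (ω : Sym2 (ℤ × ℤ) → ℝ≥0) (v : ℤ → ℤ × ℤ) : Prop :=
  Function.Injective v ∧ (∀ i, Z2.Adj (v i) (v (i + 1))) ∧
    ∀ i j, i < j → ∑ n ∈ Finset.Ico i j, ω s(v n, v (n + 1)) = T ω (v i) (v j)

end Vale.Agent.H43.P158
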