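import Mathlib

/-!
# P158, row R2 (Law): a law that is not a point mass charges two separated half-lines

TASK R2: replace every placeholder, keep the statements exactly; helper lemmas in this file with
names starting `law_`.
Recipe.  `exists_lo_hi`: by contradiction assume for all `lo < hi`: `G (Iic lo) = 0` or
`G (Ici hi) = 0`.  Claim: `G (Iic a)` is `0` or `1` for every `a` [if `G (Iic a) ≠ 0` then
`G (Ici (a + 1 / (n + 1))) = 0` for all `n`, `Ioi a = ⋃ n, Ici (a + 1 / (n + 1))`, so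
`G (Ioi a) = 0` (`measure_iUnion_null`) and `G (Iic a) = 1` (`prob_compl_eq_zero_iff` or
`measure_add_measure_compl`)].  The set `S = {a | G (Iic a) = 1}` is nonempty [`⋃ n : ℕ, Iic n =
univ`, so some `G (Iic n) ≠ 0`], bounded below by `0`; let `c = sInf S`.  Then `G (Iic c) = 1`
[`Iic c = ⋂ n, Iic (c + 1 / (n + 1))`, each of measure `1` (it contains `Iic a` for some `a ∈ S`),
decreasing: `tendsto_measure_iInter_atTop` or `measure_iInter_eq_iInf`; or directly: the complement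
`Ioi c = ⋃ n, Ioi (c + 1 / (n + 1))` is a countable union of null sets] and `G (Iio c) = 0`
[`Iio c = ⋃` over the countably many rationals / `c - 1 / (n + 1)` of `Iic a` with `a < c`, each
null because `a ∉ S`; in `ℝ≥0` use `a = c - 1 / (n + 1)` (truncated subtraction) only when `c > 0`;
if `c = 0` then `Iio 0 = ∅`].  Hence `G {c} = G (Iic c) - G (Iio c) = 1`, against `hG c`.
`exists_A`: in `ℝ`, `2 A (hi - lo) > (8 k + 4) lo` for `A` large (`exists_nat_gt`); cast back
(`NNReal.coe_lt_coe`, `push_cast`).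
-/

open MeasureTheory
open scoped NNReal

namespace Vale.Agent.H43.P158

theorem exists_lo_hi (G : Measure ℝ≥0) [IsProbabilityMeasure G] (hG : ∀ c, G {c} < 1) :
    ∃ lo hi : ℝ≥0, lo < hi ∧ 0 < G (Set.Iic lo) ∧ 0 < G (Set.Ici hi) := by
  by_contra hcon
  push Not at hcon
  have hne : {a : ℝ≥0 | 0 < G (Set.Iic a)}.Nonempty := by
    by_contra hemp
    rw [Set.not_nonempty_iff_eq_empty] at hemp
    have hall : ∀ n : ℕ, G (Set.Iic (n : ℝ≥0)) = 0 := by
      intro n
      by_contra hn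
      have hmem : (n : ℝ≥0) ∈ {a : ℝ≥0 | 0 < G (Set.Iic a)} := pos_iff_ne_zero.2 hn
      rw [hemp] at hmem
      exact hmem
    have huniv : (Set.univ : Set ℝ≥0) = ⋃ n : ℕ, Set.Iic (n : ℝ≥0) := by
      ext x
      simp only [Set.mem_univ, Set.mem_iUnion, Set.mem_Iic, true_iff]
      exact exists_nat_ge x
    have h1 : G Set.univ = 0 := by
      rw [huniv]
      exact measure_iUnion_null hall
    rw [measure_univ] at h1
    exact one_ne_zero h1
  obtain ⟨c, hc⟩ : ∃ c : ℝ≥0, c = sInf {a : ℝ≥0 | 0 < G (Set.Iic a)} := ⟨_, rfl⟩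
  have hlt : G (Set.Iio c) = 0 := by
    have hsub : Set.Iio c ⊆
        ⋃ (q : ℚ) (_ : Real.toNNReal q < c), Set.Iic (Real.toNNReal q) := by
      intro x hx
      obtain ⟨q, _, hxq, hqc⟩ := (NNReal.lt_iff_exists_rat_btwn x c).1 hx
      exact Set.mem_iUnion₂.2 ⟨q, hqc, hxq.le⟩
    refine measure_mono_null hsub ?_
    rw [measure_iUnion_null_iff]
    intro q
    rw [measure_iUnion_null_iff]
    intro hq
    rw [hc] at hq
    have hnot : Real.toNNReal q ∉ {a : ℝ≥0 | 0 < G (Set.Iic a)} :=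
      notMem_of_lt_csInf hq (OrderBot.bddBelow _)
    by_contra h0
    exact hnot (pos_iff_ne_zero.2 h0)
  have hgt : G (Set.Ioi c) = 0 := by
    have hsub : Set.Ioi c ⊆
        ⋃ (q : ℚ) (_ : c < Real.toNNReal q), Set.Ici (Real.toNNReal q) := by
      intro x hx
      obtain ⟨q, _, hcq, hqx⟩ := (NNReal.lt_iff_exists_rat_btwn c x).1 hx
      exact Set.mem_iUnion₂.2 ⟨q, hcq, hqx.le⟩
    refine measure_mono_null hsub ?_
    rw [measure_iUnion_null_iff]
    intro q
    rw [measure_iUnion_null_iff]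
    intro hq
    rw [hc] at hq
    obtain ⟨a, ha, haq⟩ := exists_lt_of_csInf_lt hne hq
    exact nonpos_iff_eq_zero.1 (hcon a (Real.toNNReal q) haq ha)
  have hcompl : G ({c}ᶜ) = 0 := by
    rw [← Set.Iio_union_Ioi]
    exact measure_union_null hlt hgt
  have h1 : G {c} = 1 := (prob_compl_eq_zero_iff (measurableSet_singleton c)).1 hcompl
  exact absurd h1 (hG c).ne

theorem exists_A (lo hi : ℝ≥0) (h : lo < hi) (k : ℕ) :
    ∃ A : ℕ, 1 ≤ A ∧ ((2 * A + 8 * k + 4 : ℕ) : ℝ≥0) * lo < ((2 * A : ℕ) : ℝ≥0) * hi := by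
  have h' : (lo : ℝ) < (hi : ℝ) := NNReal.coe_lt_coe.2 h
  have hd : 0 < (hi : ℝ) - (lo : ℝ) := sub_pos.2 h'
  obtain ⟨n, hn⟩ :=
    exists_nat_gt (((8 * (k : ℝ) + 4) * (lo : ℝ)) / (2 * ((hi : ℝ) - (lo : ℝ))))
  refine ⟨n + 1, by omega, ?_⟩
  rw [← NNReal.coe_lt_coe]
  push_cast
  rw [div_lt_iff₀ (by positivity)] at hn
  have hlo : 0 ≤ (lo : ℝ) := lo.coe_nonneg
  nlinarith

end Vale.Agent.H43.P158
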