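import Vale.Agent.H43.P158.Inner

/-!
# P158, row R4 (Block): geometry of the blocks and the target sets

TASK R4: replace every placeholder, keep the statements exactly; helper lemmas in this file with
names starting `block_`.
Recipe.  `hh_step`, `dd_step`: `Z2.Adj a b` is `|a.1 - b.1| + |a.2 - b.2| = 1` (unfold `Z2`);
both absolute values are natural-number valued, so one is `1` and the other `0`; cases on the
signs (`abs_eq`, `omega` after `rcases abs_cases`).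
`mem_sq`: `Finset.mem_product`, `Finset.mem_Icc`.
`sq_sym2_disjoint`: `Finset.disjoint_left`; an element `e` of both has (`Finset.mem_sym2_iff`) all
its members in both squares; take a member (`Sym2.ind`, `Sym2.mem_mk_left`): its first coordinate
`x` has `|x - c| ≤ M` and `|x - c'| ≤ M`, so `|c - c'| ≤ 2 M`.
`card_sq_sym2_le`: `Finset.card_sym2` and `Finset.card_product`, `Int.card_Icc` give a value that
does not depend on `c` (`c + M + 1 - (c - M) = 2 M + 1`).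
`slab_mem_sq`: `2 x = hh u + dd u`, `2 y = hh u - dd u`; `omega` after unfolding (`abs_le`).
`measurableSet_tgt`: by cases on `SlabE k A c e` the set is `Set.Ici hi` or `Set.Iic lo`.
`le_measure_tgt`: same cases, `min_le_left` / `min_le_right`.
`blocked_slab`, `blocked_out`: `s(a, b) ∈ (sq M c).sym2` by `Finset.mk_mem_sym2_iff`; `SlabE` of
`s(a, b)` is `InSlab a ∧ InSlab b` (`Sym2.mem_iff`).
-/

open MeasureTheory
open scoped NNReal ENNReal

namespace Vale.Agent.H43.P158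

theorem hh_step {a b : ℤ × ℤ} (h : Z2.Adj a b) : |hh b - hh a| = 1 := by
  have h' : |a.1 - b.1| + |a.2 - b.2| = 1 := h
  unfold hh
  rw [abs_eq (by norm_num)]
  rcases abs_cases (a.1 - b.1) with ⟨e1, _⟩ | ⟨e1, _⟩ <;>
    rcases abs_cases (a.2 - b.2) with ⟨e2, _⟩ | ⟨e2, _⟩ <;>
    rw [e1, e2] at h' <;> omega

theorem dd_step {a b : ℤ × ℤ} (h : Z2.Adj a b) : |dd b - dd a| = 1 := by
  have h' : |a.1 - b.1| + |a.2 - b.2| = 1 := h
  unfold dd
  rw [abs_eq (by norm_num)]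
  rcases abs_cases (a.1 - b.1) with ⟨e1, _⟩ | ⟨e1, _⟩ <;>
    rcases abs_cases (a.2 - b.2) with ⟨e2, _⟩ | ⟨e2, _⟩ <;>
    rw [e1, e2] at h' <;> omega

theorem mem_sq {M c : ℤ} {u : ℤ × ℤ} :
    u ∈ sq M c ↔ (c - M ≤ u.1 ∧ u.1 ≤ c + M) ∧ (c - M ≤ u.2 ∧ u.2 ≤ c + M) := by
  unfold sq
  rw [Finset.mem_product, Finset.mem_Icc, Finset.mem_Icc]

theorem sq_sym2_disjoint (M : ℤ) (c c' : ℤ) (h : 2 * M < |c - c'|) :
    Disjoint ((sq M c).sym2) ((sq M c').sym2) := by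
  rw [Finset.disjoint_left]
  intro e he he'
  induction e using Sym2.ind with
  | _ a b =>
    rw [Finset.mk_mem_sym2_iff] at he he'
    have h1 := mem_sq.mp he.1
    have h2 := mem_sq.mp he'.1
    rcases abs_cases (c - c') with ⟨e1, _⟩ | ⟨e1, _⟩ <;> rw [e1] at h <;> omega

theorem card_sq_sym2_le (M : ℤ) : ∃ N : ℕ, ∀ c : ℤ, ((sq M c).sym2).card ≤ N := by
  refine ⟨(((2 * M + 1).toNat * (2 * M + 1).toNat) + 1).choose 2, fun c => le_of_eq ?_⟩
  rw [Finset.card_sym2]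
  unfold sq
  rw [Finset.card_product, Int.card_Icc]
  have h : c + M + 1 - (c - M) = 2 * M + 1 := by ring
  rw [h]

theorem slab_mem_sq (k A : ℕ) (M c : ℤ) (hM : M = A + 4 * k + 4) (u : ℤ × ℤ)
    (h : InSlab k A c u) : u ∈ sq M c := by
  rw [mem_sq]
  obtain ⟨h1, h2, h3⟩ := h
  unfold dd at h1
  unfold hh at h2 h3
  rw [abs_le] at h1
  omega

theorem block_tgt_of_slab {k A : ℕ} {c : ℤ} {lo hi : ℝ≥0} {e : Sym2 (ℤ × ℤ)}
    (hS : SlabE k A c e) : tgt k A c lo hi e = Set.Ici hi := by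
  ext x
  simp [tgt, hS]

theorem block_tgt_of_not_slab {k A : ℕ} {c : ℤ} {lo hi : ℝ≥0} {e : Sym2 (ℤ × ℤ)}
    (hS : ¬ SlabE k A c e) : tgt k A c lo hi e = Set.Iic lo := by
  ext x
  simp [tgt, hS]

theorem measurableSet_tgt (k A : ℕ) (c : ℤ) (lo hi : ℝ≥0) (e : Sym2 (ℤ × ℤ)) :
    MeasurableSet (tgt k A c lo hi e) := by
  by_cases hS : SlabE k A c e
  · rw [block_tgt_of_slab hS]
    exact measurableSet_Ici
  · rw [block_tgt_of_not_slab hS]
    exact measurableSet_Iic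

theorem le_measure_tgt (G : Measure ℝ≥0) (k A : ℕ) (c : ℤ) (lo hi : ℝ≥0) (e : Sym2 (ℤ × ℤ)) :
    min (G (Set.Iic lo)) (G (Set.Ici hi)) ≤ G (tgt k A c lo hi e) := by
  by_cases hS : SlabE k A c e
  · rw [block_tgt_of_slab hS]
    exact min_le_right _ _
  · rw [block_tgt_of_not_slab hS]
    exact min_le_left _ _

theorem blocked_slab {k A : ℕ} {M c : ℤ} {lo hi : ℝ≥0} {ω : Sym2 (ℤ × ℤ) → ℝ≥0}
    (hB : Blocked k A M c lo hi ω) {a b : ℤ × ℤ} (ha : a ∈ sq M c) (hb : b ∈ sq M c)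
    (hsa : InSlab k A c a) (hsb : InSlab k A c b) : hi ≤ ω s(a, b) := by
  have hmem : s(a, b) ∈ (sq M c).sym2 := Finset.mk_mem_sym2_iff.mpr ⟨ha, hb⟩
  apply (hB _ hmem).1
  intro u hu
  rcases Sym2.mem_iff.mp hu with rfl | rfl
  · exact hsa
  · exact hsb

theorem blocked_out {k A : ℕ} {M c : ℤ} {lo hi : ℝ≥0} {ω : Sym2 (ℤ × ℤ) → ℝ≥0}
    (hB : Blocked k A M c lo hi ω) {a b : ℤ × ℤ} (ha : a ∈ sq M c) (hb : b ∈ sq M c)
    (hs : ¬ InSlab k A c a ∨ ¬ InSlab k A c b) : ω s(a, b) ≤ lo := by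
  have hmem : s(a, b) ∈ (sq M c).sym2 := Finset.mk_mem_sym2_iff.mpr ⟨ha, hb⟩
  apply (hB _ hmem).2
  intro hS
  rcases hs with h | h
  · exact h (hS a (Sym2.mem_mk_left a b))
  · exact h (hS b (Sym2.mem_mk_right a b))

end Vale.Agent.H43.P158
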