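import Mathlib

/-!
# P158, row R3 (BoxBC): second Borel-Cantelli lemma for box events of a product measure

TASK R3: replace the placeholder, keep the statement exactly; helper lemmas in this file with
names starting `box_`.
Recipe.  `μ = Measure.infinitePi (fun _ : ι => G)`, `s n = {ω | ∀ i ∈ E n, ω i ∈ t n i}`
`= Set.pi (E n) (t n)` (measurable: `MeasurableSet.pi (Finset.countable_toSet _)` or
`MeasurableSet.biInter` of preimages of coordinates).
(a) `μ (s n) = ∏ i ∈ E n, G (t n i)` (`Measure.infinitePi_pi`), so `μ (s n) ≥ (min q 1) ^ N > 0`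
(`Finset.prod_le_prod'` / `Finset.pow_card_le_prod`-style, `(E n).card ≤ N`, `min q 1 ≤ 1`).
(b) For a finset `S` of indices: `⋂ n ∈ S, s n = Set.pi (S.biUnion E) t'` with `t' i = t n i` for
the unique `n ∈ S` with `i ∈ E n` (or avoid `t'`: induction on `S` with `Finset.prod_union` and
`infinitePi_pi` on `E n ∪ rest` using disjointness); hence
`μ (⋂ n ∈ S, s n) = ∏ n ∈ S, μ (s n)`, i.e. `ProbabilityTheory.iIndepSet s μ`
(`ProbabilityTheory.iIndepSet_iff_meas_biInter`).
(c) `∑' n, μ (s n) = ∞` (terms bounded below by a positive constant: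
`ENNReal.tsum_const_eq_top_of_ne_zero` and `ENNReal.tsum_le_tsum`), so
`ProbabilityTheory.measure_limsup_eq_one` gives `μ (limsup s atTop) = 1`; a point of
`limsup s atTop` lies in `s n` for infinitely many `n` (`Set.mem_limsup_iff_frequently_mem`,
`Filter.frequently_atTop`); conclude with `ae_iff` / `(prob_compl_eq_zero_iff _).mpr`.
-/

open MeasureTheory
open scoped NNReal ENNReal

namespace Vale.Agent.H43.P158

theorem box_io {ι : Type} (G : Measure ℝ≥0) [IsProbabilityMeasure G]
    (E : ℕ → Finset ι) (hE : ∀ m n, m ≠ n → Disjoint (E m) (E n))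
    (t : ℕ → ι → Set ℝ≥0) (ht : ∀ n i, MeasurableSet (t n i))
    (N : ℕ) (hN : ∀ n, (E n).card ≤ N) (q : ℝ≥0∞) (hq : 0 < q) (hq' : ∀ n i, q ≤ G (t n i)) :
    ∀ᵐ ω ∂(Measure.infinitePi (fun _ : ι => G)),
      ∀ n₀ : ℕ, ∃ n, n₀ ≤ n ∧ ∀ i ∈ E n, ω i ∈ t n i := by
  classical
  obtain ⟨μ, hμ⟩ : ∃ μ : Measure (ι → ℝ≥0), μ = Measure.infinitePi (fun _ : ι => G) := ⟨_, rfl⟩
  have hprob : IsProbabilityMeasure μ := by rw [hμ]; infer_instance
  rw [← hμ]
  obtain ⟨s, hs⟩ : ∃ s : ℕ → Set (ι → ℝ≥0), ∀ n, s n = Set.pi (E n : Set ι) (t n) :=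
    ⟨_, fun _ => rfl⟩
  have hsmeas : ∀ n, μ (s n) = ∏ i ∈ E n, G (t n i) := by
    intro n
    rw [hs, hμ]
    exact Measure.infinitePi_pi (fun _ : ι => G) (fun i _ => ht n i)
  have hsm : ∀ n, MeasurableSet (s n) := by
    intro n
    rw [hs]
    exact MeasurableSet.pi (Finset.countable_toSet _) (fun i _ => ht n i)
  have key : ∀ S : Finset ℕ, μ (⋂ n ∈ S, s n) = ∏ n ∈ S, μ (s n) := by
    intro S
    obtain ⟨t', ht'⟩ : ∃ t' : ι → Set ℝ≥0,
        ∀ i, t' i = ⋂ n ∈ S, (if i ∈ E n then t n i else Set.univ) := ⟨_, fun _ => rfl⟩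
    have hset : (⋂ n ∈ S, s n) = Set.pi ((S.biUnion E : Finset ι) : Set ι) t' := by
      ext ω
      simp only [Set.mem_iInter, Set.mem_pi, Finset.mem_coe, Finset.mem_biUnion, hs, ht']
      constructor
      · rintro h i ⟨n, hn, hi⟩ n' hn'
        split_ifs with h'
        · exact h n' hn' i h'
        · trivial
      · intro h n hn i hi
        have h1 := h i ⟨n, hn, hi⟩ n hn
        rw [if_pos hi] at h1
        exact h1
    have hmeas' : ∀ i ∈ S.biUnion E, MeasurableSet (t' i) := by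
      intro i _
      rw [ht']
      refine Finset.measurableSet_biInter S (fun n _ => ?_)
      split_ifs
      · exact ht n i
      · exact MeasurableSet.univ
    rw [hset, hμ, Measure.infinitePi_pi (fun _ : ι => G) hmeas', ← hμ]
    rw [Finset.prod_biUnion (fun m _ n _ hmn => hE m n hmn)]
    apply Finset.prod_congr rfl
    intro n hn
    rw [hsmeas n]
    apply Finset.prod_congr rfl
    intro i hi
    have hti : t' i = t n i := by
      rw [ht']
      ext x
      simp only [Set.mem_iInter]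
      constructor
      · intro h
        have h1 := h n hn
        rw [if_pos hi] at h1
        exact h1
      · intro hx n' hn'
        by_cases hnn : n' = n
        · subst hnn
          rw [if_pos hi]
          exact hx
        · have hni : i ∉ E n' := fun hi' =>
            (Finset.disjoint_left.1 (hE n' n hnn) hi') hi
          rw [if_neg hni]
          trivial
    rw [hti]
  have hindep : ProbabilityTheory.iIndepSet s μ :=
    (ProbabilityTheory.iIndepSet_iff_meas_biInter hsm).2 key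
  obtain ⟨q₁, hq₁⟩ : ∃ q₁ : ℝ≥0∞, q₁ = min q 1 := ⟨_, rfl⟩
  have hq₁pos : 0 < q₁ := by rw [hq₁]; exact lt_min hq one_pos
  have hq₁le : q₁ ≤ 1 := by rw [hq₁]; exact min_le_right _ _
  have hlow : ∀ n, q₁ ^ N ≤ μ (s n) := by
    intro n
    rw [hsmeas n]
    calc q₁ ^ N ≤ q₁ ^ (E n).card := pow_le_pow_of_le_one zero_le hq₁le (hN n)
      _ = ∏ _i ∈ E n, q₁ := by rw [Finset.prod_const]
      _ ≤ ∏ i ∈ E n, G (t n i) :=
          Finset.prod_le_prod' (fun i _ => le_trans (by rw [hq₁]; exact min_le_left _ _) (hq' n i))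
  have hsum : (∑' n, μ (s n)) = ∞ := by
    have hc : q₁ ^ N ≠ 0 := (ENNReal.pow_pos hq₁pos N).ne'
    have h1 : (∑' _n : ℕ, q₁ ^ N) = ∞ := ENNReal.tsum_const_eq_top_of_ne_zero hc
    have h2 : (∑' _n : ℕ, q₁ ^ N) ≤ ∑' n, μ (s n) := ENNReal.tsum_le_tsum hlow
    rw [h1] at h2
    exact top_le_iff.1 h2
  have hlim : μ (Filter.limsup s Filter.atTop) = 1 :=
    ProbabilityTheory.measure_limsup_eq_one hsm hindep hsum
  have hmlim : MeasurableSet (Filter.limsup s Filter.atTop) :=
    MeasurableSet.measurableSet_limsup hsm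
  have hae : ∀ᵐ ω ∂μ, ω ∈ Filter.limsup s Filter.atTop := by
    rw [ae_iff]
    exact (prob_compl_eq_zero_iff hmlim).2 hlim
  filter_upwards [hae] with ω hω n₀
  rw [Filter.mem_limsup_iff_frequently_mem, Filter.frequently_atTop] at hω
  obtain ⟨n, hn, hmem⟩ := hω n₀
  refine ⟨n, hn, ?_⟩
  rw [hs] at hmem
  exact fun i hi => hmem i (Finset.mem_coe.2 hi)

end Vale.Agent.H43.P158
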