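import Mathlib

/-!
# P158, row R7 (Crossing): discrete intermediate value theorem for a slab crossing

TASK R7 (done): helper lemmas in this file have names starting `cross_`.
Recipe.  First a helper `cross_ivt`: if `|f (n + 1) - f n| = 1` for all `n`, `a ≤ b` and
`f a ≤ y ≤ f b`, then `∃ n, a ≤ n ∧ n ≤ b ∧ f n = y` (induction on `b - a`).
`crossing_up`: `j :=` the least `n ∈ [a, b]` with `f n = l + L` (exists by `cross_ivt`; least
element: `Int.exists_least_of_bdd`), `i :=` the
greatest `n ∈ [a, j]` with `f n = l`.  For `i < n < j`: `f n ≠ l` (maximality of `i`) and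
`f n < l` is impossible (then `cross_ivt` on `[n, j]` gives a later point at level `l`); `f n ≠
l + L` (minimality of `j`) and `f n > l + L` is impossible (`cross_ivt` on `[a, n]` gives an
earlier point at level `l + L`).  `L ≤ j - i`: `|f j - f i| ≤ j - i` for `i ≤ j` (induction).
`crossing_down`: `crossing_up` applied to `fun n => - f n` with `l' = - (l + L)`.
-/

namespace Vale.Agent.H43.P158

theorem cross_ivt_nat (f : ℤ → ℤ) (hf : ∀ n, |f (n + 1) - f n| = 1) (a y : ℤ) (ha : f a ≤ y) :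
    ∀ k : ℕ, y ≤ f (a + k) → ∃ n, a ≤ n ∧ n ≤ a + k ∧ f n = y := by
  intro k
  induction k with
  | zero =>
    intro hb
    refine ⟨a, le_refl a, by simp, ?_⟩
    simp only [Nat.cast_zero, add_zero] at hb
    omega
  | succ k ih =>
    intro hb
    by_cases hk : y ≤ f (a + k)
    · obtain ⟨n, h1, h2, h3⟩ := ih hk
      refine ⟨n, h1, ?_, h3⟩
      push_cast
      omega
    · have h := hf (a + k)
      have hcast : a + ((k + 1 : ℕ) : ℤ) = a + k + 1 := by push_cast; ring
      rw [hcast] at hb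
      refine ⟨a + k + 1, by omega, by push_cast; omega, ?_⟩
      have h' : f (a + k + 1) - f (a + k) ≤ 1 := by
        have := le_abs_self (f (a + k + 1) - f (a + k))
        omega
      omega

theorem cross_ivt (f : ℤ → ℤ) (hf : ∀ n, |f (n + 1) - f n| = 1) (a b y : ℤ) (hab : a ≤ b)
    (ha : f a ≤ y) (hb : y ≤ f b) : ∃ n, a ≤ n ∧ n ≤ b ∧ f n = y := by
  have hba : a + ((b - a).toNat : ℤ) = b := by
    rw [Int.toNat_of_nonneg (by omega)]
    ring
  have h := cross_ivt_nat f hf a y ha (b - a).toNat (by rw [hba]; exact hb)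
  rw [hba] at h
  exact h

theorem cross_lip_nat (f : ℤ → ℤ) (hf : ∀ n, |f (n + 1) - f n| = 1) (i : ℤ) :
    ∀ k : ℕ, |f (i + k) - f i| ≤ k := by
  intro k
  induction k with
  | zero => simp
  | succ k ih =>
    have h := hf (i + k)
    have hcast : i + ((k + 1 : ℕ) : ℤ) = i + k + 1 := by push_cast; ring
    rw [hcast]
    have h1 : f (i + k + 1) - f i = (f (i + k + 1) - f (i + k)) + (f (i + k) - f i) := by ring
    rw [h1]
    calc |f (i + k + 1) - f (i + k) + (f (i + k) - f i)|
        ≤ |f (i + k + 1) - f (i + k)| + |f (i + k) - f i| := abs_add_le _ _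
      _ ≤ 1 + k := by rw [h]; exact add_le_add_right ih 1
      _ = ((k + 1 : ℕ) : ℤ) := by push_cast; ring

theorem cross_lip (f : ℤ → ℤ) (hf : ∀ n, |f (n + 1) - f n| = 1) (i j : ℤ) (hij : i ≤ j) :
    |f j - f i| ≤ j - i := by
  have hji : i + ((j - i).toNat : ℤ) = j := by
    rw [Int.toNat_of_nonneg (by omega)]
    ring
  have h := cross_lip_nat f hf i (j - i).toNat
  rw [hji, Int.toNat_of_nonneg (by omega)] at h
  exact h

theorem crossing_up (f : ℤ → ℤ) (hf : ∀ n, |f (n + 1) - f n| = 1) (a b l L : ℤ)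
    (hab : a < b) (hL : 1 ≤ L) (ha : f a ≤ l) (hb : l + L ≤ f b) :
    ∃ i j, a ≤ i ∧ i < j ∧ j ≤ b ∧ f i = l ∧ f j = l + L ∧
      (∀ n, i ≤ n → n ≤ j → l ≤ f n ∧ f n ≤ l + L) ∧ L ≤ j - i := by
  classical
  -- the least `j` in `[a, b]` at level `l + L`
  obtain ⟨j, ⟨hj1, hj2, hj3⟩, hjmin⟩ :=
    Int.exists_least_of_bdd (P := fun n => a ≤ n ∧ n ≤ b ∧ f n = l + L)
      ⟨a, fun z hz => hz.1⟩ (cross_ivt f hf a b (l + L) hab.le (by omega) hb)
  -- the greatest `i` in `[a, j]` at level `l`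
  obtain ⟨i, ⟨hi1, hi2, hi3⟩, himax⟩ :=
    Int.exists_greatest_of_bdd (P := fun n => a ≤ n ∧ n ≤ j ∧ f n = l)
      ⟨j, fun z hz => hz.2.1⟩ (cross_ivt f hf a j l hj1 ha (by omega))
  have hij : i < j := by
    rcases lt_or_eq_of_le hi2 with h | h
    · exact h
    · exfalso
      rw [h] at hi3
      omega
  refine ⟨i, j, hi1, hij, hj2, hi3, hj3, ?_, ?_⟩
  · intro n hn1 hn2
    constructor
    · by_contra hlt
      have hlt' : f n < l := not_le.mp hlt
      obtain ⟨m, hm1, hm2, hm3⟩ := cross_ivt f hf n j l hn2 hlt'.le (by omega)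
      have hmi : m ≤ i := himax m ⟨by omega, hm2, hm3⟩
      have hni : n = i := by omega
      rw [hni] at hlt'
      omega
    · by_contra hgt
      have hgt' : l + L < f n := not_le.mp hgt
      obtain ⟨m, hm1, hm2, hm3⟩ := cross_ivt f hf a n (l + L) (by omega) (by omega) hgt'.le
      have hjm : j ≤ m := hjmin m ⟨hm1, by omega, hm3⟩
      have hnj : n = j := by omega
      rw [hnj] at hgt'
      omega
  · have h := cross_lip f hf i j hij.le
    rw [hi3, hj3] at h
    have h2 := le_abs_self (l + L - l)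
    omega

theorem crossing_down (f : ℤ → ℤ) (hf : ∀ n, |f (n + 1) - f n| = 1) (a b l L : ℤ)
    (hab : a < b) (hL : 1 ≤ L) (ha : l + L ≤ f a) (hb : f b ≤ l) :
    ∃ i j, a ≤ i ∧ i < j ∧ j ≤ b ∧ f i = l + L ∧ f j = l ∧
      (∀ n, i ≤ n → n ≤ j → l ≤ f n ∧ f n ≤ l + L) ∧ L ≤ j - i := by
  have hg : ∀ n, |(fun n => - f n) (n + 1) - (fun n => - f n) n| = 1 := by
    intro n
    have h := hf n
    have h1 : (fun n => - f n) (n + 1) - (fun n => - f n) n = -(f (n + 1) - f n) := by
      show - f (n + 1) - - f n = -(f (n + 1) - f n)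
      ring
    rw [h1, abs_neg]
    exact h
  have ha' : (fun n => - f n) a ≤ -(l + L) := by
    show - f a ≤ -(l + L)
    omega
  have hb' : -(l + L) + L ≤ (fun n => - f n) b := by
    show -(l + L) + L ≤ - f b
    omega
  obtain ⟨i, j, h1, h2, h3, h4, h5, h6, h7⟩ :=
    crossing_up (fun n => - f n) hg a b (-(l + L)) L hab hL ha' hb'
  have h4' : - f i = -(l + L) := h4
  have h5' : - f j = -(l + L) + L := h5
  refine ⟨i, j, h1, h2, h3, by omega, by omega, ?_, h7⟩
  intro n hn1 hn2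
  have h6' : -(l + L) ≤ - f n ∧ - f n ≤ -(l + L) + L := h6 n hn1 hn2
  constructor <;> omega

end Vale.Agent.H43.P158
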