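import Vale.Agent.H43.P158.DetourSeg

/-!
# P158, row R6 (Detour): a cheap walk around a blocked slab

TASK R6: replace the placeholder, keep the statement exactly; helper lemmas in this file with
names starting `detour_aux_`.  Uses `detour_down`, `detour_stair`, `detour_left` (DetourSeg.lean),
`wt_append` (WalkBasic.lean) as black boxes.
Recipe.  `s := (k + 1 - dd u).toNat`, `s' := (k + 1 - dd z).toNat` (both are `≥ 1` and
`≤ 2 k + 1` because `|dd| ≤ k`; `Int.toNat_of_nonneg`).  `P := (u.1, u.2 - s)` has `dd P = k + 1`.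
`m := (z.1 + s' - u.1).toNat`; then `(m : ℤ) = z.1 + s' - u.1 = z.2 - (u.2 - s)` and
`2 m = 2 A + s + s'` [from `hh z - hh u = 2 A` and the values of `dd`; unfold `hh`, `dd`; `omega`].
So `(P.1 + m, P.2 + m) = (z.1 + s', z.2)` (`Prod.ext`).  The bounds `h1 .. h4` of `detour_stair`
hold because `2 u.1 = hh u + dd u`, `2 u.2 = hh u - dd u`, the same for `z`, `s, s' ≤ 2 k + 1` and
`M = A + 4 k + 4`.  Get the three walks `p₁ : u → P`, `p₂ : P → (P.1 + m, P.2 + m)`,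
`p₃ : (z.1 + s', z.2) → z` (rewrite the end point of `p₂` with the equality above: `▸` or
`SimpleGraph.Walk.copy`; simplest: prove the equality first and `subst` / `rw` it in the statement
of `detour_stair` before obtaining `p₂`), take `(p₁.append p₂).append p₃`, `wt_append` twice, and
`s * lo + 2 m * lo + s' * lo = (2 A + 2 s + 2 s') * lo ≤ (2 A + 8 k + 4) * lo`
(`mul_le_mul_of_nonneg_right`, casts of naturals: `Nat.cast_le`, `push_cast`).
-/

open MeasureTheory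
open scoped NNReal

namespace Vale.Agent.H43.P158

theorem detour_aux_wt_copy (ω : Sym2 (ℤ × ℤ) → ℝ≥0) {x y y' : ℤ × ℤ} (p : Z2.Walk x y)
    (e : y = y') : wt ω (p.copy rfl e) = wt ω p := by
  subst e
  rfl

theorem detour (k A : ℕ) (M c : ℤ) (hM : M = A + 4 * k + 4) (lo hi : ℝ≥0)
    (ω : Sym2 (ℤ × ℤ) → ℝ≥0) (hB : Blocked k A M c lo hi ω)
    (u z : ℤ × ℤ) (hu : |dd u| ≤ k) (hz : |dd z| ≤ k)
    (hhu : hh u = 2 * c - A) (hhz : hh z = 2 * c + A) :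
    ∃ p : Z2.Walk u z, wt ω p ≤ ((2 * A + 8 * k + 4 : ℕ) : ℝ≥0) * lo := by
  obtain ⟨hu1, hu2⟩ := abs_le.mp hu
  obtain ⟨hz1, hz2⟩ := abs_le.mp hz
  have hs : (((k : ℤ) + 1 - dd u).toNat : ℤ) = k + 1 - dd u :=
    Int.toNat_of_nonneg (by linarith)
  have hs' : (((k : ℤ) + 1 - dd z).toNat : ℤ) = k + 1 - dd z :=
    Int.toNat_of_nonneg (by linarith)
  generalize ((k : ℤ) + 1 - dd u).toNat = s at hs
  generalize ((k : ℤ) + 1 - dd z).toNat = s' at hs'
  have hdu : dd u = u.1 - u.2 := rfl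
  have hdz : dd z = z.1 - z.2 := rfl
  have hhu' : u.1 + u.2 = 2 * c - A := hhu
  have hhz' : z.1 + z.2 = 2 * c + A := hhz
  have hm0 : 0 ≤ z.1 + (s' : ℤ) - u.1 := by omega
  have hm : ((z.1 + (s' : ℤ) - u.1).toNat : ℤ) = z.1 + s' - u.1 := Int.toNat_of_nonneg hm0
  generalize (z.1 + (s' : ℤ) - u.1).toNat = m at hm
  have hP : dd ((u.1, u.2 - (s : ℤ)) : ℤ × ℤ) = k + 1 := by
    show u.1 - (u.2 - (s : ℤ)) = k + 1
    omega
  have e : (((u.1, u.2 - (s : ℤ)) : ℤ × ℤ).1 + (m : ℤ), ((u.1, u.2 - (s : ℤ)) : ℤ × ℤ).2 + (m : ℤ))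
      = (z.1 + (s' : ℤ), z.2) := by
    apply Prod.ext
    · show u.1 + (m : ℤ) = z.1 + (s' : ℤ)
      omega
    · show u.2 - (s : ℤ) + (m : ℤ) = z.2
      omega
  obtain ⟨p₁, hp₁⟩ := detour_down k A M c hM lo hi ω hB u hu hhu s hs
  obtain ⟨p₂, hp₂⟩ := detour_stair k A M c lo hi ω hB (u.1, u.2 - (s : ℤ)) m hP
    (by show c - M ≤ u.1; omega) (by show u.1 + (m : ℤ) ≤ c + M; omega)
    (by show c - M ≤ u.2 - (s : ℤ); omega) (by show u.2 - (s : ℤ) + (m : ℤ) ≤ c + M; omega)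
  obtain ⟨p₃, hp₃⟩ := detour_left k A M c hM lo hi ω hB z hz hhz s' hs'
  refine ⟨(p₁.append (p₂.copy rfl e)).append p₃, ?_⟩
  rw [wt_append, wt_append, detour_aux_wt_copy]
  have hnat : s + 2 * m + s' ≤ 2 * A + 8 * k + 4 := by omega
  calc wt ω p₁ + wt ω p₂ + wt ω p₃
      ≤ (s : ℝ≥0) * lo + ((2 * m : ℕ) : ℝ≥0) * lo + (s' : ℝ≥0) * lo :=
        add_le_add (add_le_add hp₁ hp₂) hp₃
    _ = ((s + 2 * m + s' : ℕ) : ℝ≥0) * lo := by push_cast; ring
    _ ≤ ((2 * A + 8 * k + 4 : ℕ) : ℝ≥0) * lo :=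
        mul_le_mul_of_nonneg_right (by exact_mod_cast hnat) zero_le

end Vale.Agent.H43.P158
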