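import Vale.Agent.H43.P158.WalkBasic
import Vale.Agent.H43.P158.Block

/-!
# P158, row R5 (DetourSeg): the three pieces of the detour around a blocked slab

TASK R5: replace every placeholder, keep the statements exactly; helper lemmas in this file with
names starting `dseg_`.  Uses `chain_walk` (WalkBasic.lean), `mem_sq`, `blocked_out` (Block.lean)
as black boxes.
Recipe.  Each piece is `chain_walk ω lo c n` for an explicit `c : ℕ → ℤ × ℤ`; for every `i < n`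
show `Z2.Adj (c i) (c (i + 1))` (unfold `Z2`; the two points differ by one unit step: `simp`,
`omega` / `abs` computations), both points in `sq M c` (`mem_sq`, `omega`) and one of them not a
slab vertex, then `blocked_out`.  Unfold `InSlab`, `hh`, `dd`; `abs_le` turns `|dd u| ≤ k` into two
linear inequalities.
* `detour_down`: `c i = (u.1, u.2 - i)`, `n = s`.  `hh (c (i + 1)) = hh u - (i + 1) < 2 c - A`,
  so `c (i + 1)` is not a slab vertex.  Square: `2 u.1 = hh u + dd u`, `2 u.2 = hh u - dd u`,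
  `s ≤ 2 k + 1`, `M = A + 4 k + 4`.  The end point is `c s = (u.1, u.2 - s)`, and `c 0 = u`
  (`Prod.ext`, `simp`; you may need `show` / `Prod.mk.eta`).
* `detour_left`: `c i = (z.1 + s - i, z.2)`, `n = s`.  `hh (c i) = hh z + s - i > 2 c + A` for
  `i < s`, so `c i` is not a slab vertex.  `c 0 = (z.1 + s, z.2)`, `c s = z`.
* `detour_stair`: `c i = (P.1 + ((i + 1) / 2 : ℕ), P.2 + (i / 2 : ℕ))` (natural division),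
  `n = 2 * m`; `c (2 r) = (P.1 + r, P.2 + r)`, `c (2 r + 1) = (P.1 + r + 1, P.2 + r)`; split
  `i` into even / odd (`Nat.even_or_odd'`).  `dd (c i)` is `k + 1` or `k + 2`, so no vertex of the
  staircase is a slab vertex.  Square: the four bounds `h1 .. h4`.
-/

open MeasureTheory
open scoped NNReal

namespace Vale.Agent.H43.P158

theorem dseg_adj {a b : ℤ × ℤ}
    (h : (a.1 = b.1 ∧ (a.2 = b.2 + 1 ∨ b.2 = a.2 + 1)) ∨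
      (a.2 = b.2 ∧ (a.1 = b.1 + 1 ∨ b.1 = a.1 + 1))) : Z2.Adj a b := by
  show |a.1 - b.1| + |a.2 - b.2| = 1
  rcases abs_cases (a.1 - b.1) with ⟨e1, _⟩ | ⟨e1, _⟩ <;>
    rcases abs_cases (a.2 - b.2) with ⟨e2, _⟩ | ⟨e2, _⟩ <;> rw [e1, e2] <;> omega

theorem dseg_chain (k A : ℕ) (M c : ℤ) (lo hi : ℝ≥0)
    (ω : Sym2 (ℤ × ℤ) → ℝ≥0) (hB : Blocked k A M c lo hi ω)
    (ch : ℕ → ℤ × ℤ) (n : ℕ) (x y : ℤ × ℤ) (hx : ch 0 = x) (hy : ch n = y)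
    (h : ∀ i, i < n → Z2.Adj (ch i) (ch (i + 1)) ∧ ch i ∈ sq M c ∧ ch (i + 1) ∈ sq M c ∧
      (¬ InSlab k A c (ch i) ∨ ¬ InSlab k A c (ch (i + 1)))) :
    ∃ p : Z2.Walk x y, wt ω p ≤ (n : ℝ≥0) * lo := by
  subst hx hy
  exact chain_walk ω lo ch n (fun i hi =>
    ⟨(h i hi).1, blocked_out hB (h i hi).2.1 (h i hi).2.2.1 (h i hi).2.2.2⟩)

theorem detour_down (k A : ℕ) (M c : ℤ) (hM : M = A + 4 * k + 4) (lo hi : ℝ≥0)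
    (ω : Sym2 (ℤ × ℤ) → ℝ≥0) (hB : Blocked k A M c lo hi ω)
    (u : ℤ × ℤ) (hu : |dd u| ≤ k) (hhu : hh u = 2 * c - A) (s : ℕ)
    (hs : (s : ℤ) = k + 1 - dd u) :
    ∃ p : Z2.Walk u (u.1, u.2 - s), wt ω p ≤ (s : ℝ≥0) * lo := by
  have hu1 : -(k : ℤ) ≤ u.1 - u.2 := (abs_le.mp hu).1
  have hu2 : u.1 - u.2 ≤ (k : ℤ) := (abs_le.mp hu).2
  have hhu' : u.1 + u.2 = 2 * c - A := hhu
  have hs' : (s : ℤ) = k + 1 - (u.1 - u.2) := hs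
  refine dseg_chain k A M c lo hi ω hB (fun i => (u.1, u.2 - (i : ℤ))) s u (u.1, u.2 - s)
    ?_ rfl ?_
  · show (u.1, u.2 - ((0 : ℕ) : ℤ)) = u
    simp
  · intro i hi
    have e2 : u.2 - (i : ℤ) = u.2 - ((i + 1 : ℕ) : ℤ) + 1 := by
      push_cast
      ring
    refine ⟨dseg_adj (Or.inl ⟨rfl, Or.inl e2⟩), ?_, ?_, ?_⟩
    · rw [mem_sq]
      show (c - M ≤ u.1 ∧ u.1 ≤ c + M) ∧ (c - M ≤ u.2 - (i : ℤ) ∧ u.2 - (i : ℤ) ≤ c + M)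
      omega
    · rw [mem_sq]
      show (c - M ≤ u.1 ∧ u.1 ≤ c + M) ∧
        (c - M ≤ u.2 - ((i + 1 : ℕ) : ℤ) ∧ u.2 - ((i + 1 : ℕ) : ℤ) ≤ c + M)
      omega
    · refine Or.inr (fun hsl => ?_)
      have h2 : 2 * c - (A : ℤ) ≤ u.1 + (u.2 - ((i + 1 : ℕ) : ℤ)) := hsl.2.1
      omega

theorem detour_left (k A : ℕ) (M c : ℤ) (hM : M = A + 4 * k + 4) (lo hi : ℝ≥0)
    (ω : Sym2 (ℤ × ℤ) → ℝ≥0) (hB : Blocked k A M c lo hi ω)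
    (z : ℤ × ℤ) (hz : |dd z| ≤ k) (hhz : hh z = 2 * c + A) (s : ℕ)
    (hs : (s : ℤ) = k + 1 - dd z) :
    ∃ p : Z2.Walk (z.1 + s, z.2) z, wt ω p ≤ (s : ℝ≥0) * lo := by
  have hz1 : -(k : ℤ) ≤ z.1 - z.2 := (abs_le.mp hz).1
  have hz2 : z.1 - z.2 ≤ (k : ℤ) := (abs_le.mp hz).2
  have hhz' : z.1 + z.2 = 2 * c + A := hhz
  have hs' : (s : ℤ) = k + 1 - (z.1 - z.2) := hs
  refine dseg_chain k A M c lo hi ω hB (fun i => (z.1 + (s : ℤ) - (i : ℤ), z.2)) s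
    (z.1 + s, z.2) z ?_ ?_ ?_
  · show (z.1 + (s : ℤ) - ((0 : ℕ) : ℤ), z.2) = (z.1 + s, z.2)
    simp
  · show (z.1 + (s : ℤ) - (s : ℤ), z.2) = z
    simp
  · intro i hi
    have e1 : z.1 + (s : ℤ) - (i : ℤ) = z.1 + (s : ℤ) - ((i + 1 : ℕ) : ℤ) + 1 := by
      push_cast
      ring
    refine ⟨dseg_adj (Or.inr ⟨rfl, Or.inl e1⟩), ?_, ?_, ?_⟩
    · rw [mem_sq]
      show (c - M ≤ z.1 + (s : ℤ) - (i : ℤ) ∧ z.1 + (s : ℤ) - (i : ℤ) ≤ c + M) ∧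
        (c - M ≤ z.2 ∧ z.2 ≤ c + M)
      omega
    · rw [mem_sq]
      show (c - M ≤ z.1 + (s : ℤ) - ((i + 1 : ℕ) : ℤ) ∧
        z.1 + (s : ℤ) - ((i + 1 : ℕ) : ℤ) ≤ c + M) ∧ (c - M ≤ z.2 ∧ z.2 ≤ c + M)
      omega
    · refine Or.inl (fun hsl => ?_)
      have h2 : z.1 + (s : ℤ) - (i : ℤ) + z.2 ≤ 2 * c + (A : ℤ) := hsl.2.2
      omega

theorem detour_stair (k A : ℕ) (M c : ℤ) (lo hi : ℝ≥0)
    (ω : Sym2 (ℤ × ℤ) → ℝ≥0) (hB : Blocked k A M c lo hi ω)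
    (P : ℤ × ℤ) (m : ℕ) (hP : dd P = k + 1)
    (h1 : c - M ≤ P.1) (h2 : P.1 + m ≤ c + M) (h3 : c - M ≤ P.2) (h4 : P.2 + m ≤ c + M) :
    ∃ p : Z2.Walk P (P.1 + m, P.2 + m), wt ω p ≤ ((2 * m : ℕ) : ℝ≥0) * lo := by
  have hP' : P.1 - P.2 = (k : ℤ) + 1 := hP
  refine dseg_chain k A M c lo hi ω hB
    (fun i => (P.1 + (((i + 1) / 2 : ℕ) : ℤ), P.2 + ((i / 2 : ℕ) : ℤ))) (2 * m)
    P (P.1 + m, P.2 + m) ?_ ?_ ?_
  · show (P.1 + (((0 + 1) / 2 : ℕ) : ℤ), P.2 + ((0 / 2 : ℕ) : ℤ)) = P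
    simp
  · show (P.1 + (((2 * m + 1) / 2 : ℕ) : ℤ), P.2 + ((2 * m / 2 : ℕ) : ℤ)) = (P.1 + m, P.2 + m)
    have e1 : (2 * m + 1) / 2 = m := by omega
    have e2 : 2 * m / 2 = m := by omega
    rw [e1, e2]
  · intro i hi
    refine ⟨dseg_adj ?_, ?_, ?_, ?_⟩
    · show (P.1 + (((i + 1) / 2 : ℕ) : ℤ) = P.1 + (((i + 1 + 1) / 2 : ℕ) : ℤ) ∧
          (P.2 + ((i / 2 : ℕ) : ℤ) = P.2 + (((i + 1) / 2 : ℕ) : ℤ) + 1 ∨
            P.2 + (((i + 1) / 2 : ℕ) : ℤ) = P.2 + ((i / 2 : ℕ) : ℤ) + 1)) ∨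
        (P.2 + ((i / 2 : ℕ) : ℤ) = P.2 + (((i + 1) / 2 : ℕ) : ℤ) ∧
          (P.1 + (((i + 1) / 2 : ℕ) : ℤ) = P.1 + (((i + 1 + 1) / 2 : ℕ) : ℤ) + 1 ∨
            P.1 + (((i + 1 + 1) / 2 : ℕ) : ℤ) = P.1 + (((i + 1) / 2 : ℕ) : ℤ) + 1))
      omega
    · rw [mem_sq]
      show (c - M ≤ P.1 + (((i + 1) / 2 : ℕ) : ℤ) ∧ P.1 + (((i + 1) / 2 : ℕ) : ℤ) ≤ c + M) ∧
        (c - M ≤ P.2 + ((i / 2 : ℕ) : ℤ) ∧ P.2 + ((i / 2 : ℕ) : ℤ) ≤ c + M)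
      omega
    · rw [mem_sq]
      show (c - M ≤ P.1 + (((i + 1 + 1) / 2 : ℕ) : ℤ) ∧
          P.1 + (((i + 1 + 1) / 2 : ℕ) : ℤ) ≤ c + M) ∧
        (c - M ≤ P.2 + (((i + 1) / 2 : ℕ) : ℤ) ∧ P.2 + (((i + 1) / 2 : ℕ) : ℤ) ≤ c + M)
      omega
    · refine Or.inl (fun hsl => ?_)
      have h5 : P.1 + (((i + 1) / 2 : ℕ) : ℤ) - (P.2 + ((i / 2 : ℕ) : ℤ)) ≤ (k : ℤ) :=
        (abs_le.mp hsl.1).2
      omega

end Vale.Agent.H43.P158
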