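import Vale.Agent.H43.P158.Defs

/-!
# P158: internal definitions (not used by the final statement)

`hh u = x + y`, `dd u = x - y`.  The block with centre `(c, c)`: the square `sq M c`, its pairs
`(sq M c).sym2`, the slab vertices `InSlab k A c` (inside the strip `|dd| ≤ k`, levels
`2c - A ≤ hh ≤ 2c + A`), the slab pairs `SlabE`, the target set `tgt` of one coordinate and the
event `Blocked`: slab pairs have weight `≥ hi`, all other pairs of the square weight `≤ lo`.
Paper proof: board row 1058.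
-/

open MeasureTheory
open scoped NNReal

namespace Vale.Agent.H43.P158

/-- The coordinate along the diagonal. -/
def hh (u : ℤ × ℤ) : ℤ := u.1 + u.2

/-- The coordinate across the diagonal. -/
def dd (u : ℤ × ℤ) : ℤ := u.1 - u.2

/-- The square of half-side `M` centred at `(c, c)`. -/
noncomputable def sq (M c : ℤ) : Finset (ℤ × ℤ) := Finset.Icc (c - M) (c + M) ×ˢ Finset.Icc (c - M) (c + M)

/-- A slab vertex of the block `c`. -/
def InSlab (k A : ℕ) (c : ℤ) (u : ℤ × ℤ) : Prop :=
  |dd u| ≤ k ∧ 2 * c - A ≤ hh u ∧ hh u ≤ 2 * c + A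

/-- A slab pair of the block `c`: both members are slab vertices. -/
def SlabE (k A : ℕ) (c : ℤ) (e : Sym2 (ℤ × ℤ)) : Prop := ∀ u ∈ e, InSlab k A c u

/-- The target set of the weight of the pair `e` in the block `c`. -/
def tgt (k A : ℕ) (c : ℤ) (lo hi : ℝ≥0) (e : Sym2 (ℤ × ℤ)) : Set ℝ≥0 :=
  {x | (SlabE k A c e → hi ≤ x) ∧ (¬ SlabE k A c e → x ≤ lo)}

/-- The block `c` is blocked. -/
def Blocked (k A : ℕ) (M c : ℤ) (lo hi : ℝ≥0) (ω : Sym2 (ℤ × ℤ) → ℝ≥0) : Prop :=
  ∀ e ∈ (sq M c).sym2, ω e ∈ tgt k A c lo hi e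

/-- The centre of the `n`-th block on the positive side (the negative side uses `-ctr M n`). -/
def ctr (M : ℤ) (n : ℕ) : ℤ := ((n : ℤ) + 1) * (2 * M + 1)

end Vale.Agent.H43.P158
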