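import Vale.Agent.H43.P158.WalkBasic
import Vale.Agent.H43.P158.Inner

/-!
# P158, row R11 (Ends): one-sided sequences, symmetry of the passage time, reversal

TASK R11: replace every placeholder, keep the statements exactly; helper lemmas in this file with
names starting `ends_`.  Uses `wt_reverse` (WalkBasic.lean) as a black box.
Recipe.  `unbounded_nat`: the proof of `unbounded` (Unbounded.lean, on main) with `ℕ` in place of
`ℤ` as index type: for `m : ℕ` the set `{u | |dd u| ≤ k ∧ |hh u| ≤ m}` lies in the finset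
`Finset.Icc (-(m + k)) (m + k) ×ˢ Finset.Icc (-(m + k)) (m + k)`, and the injective `v` has
infinite range (`Set.infinite_range_of_injective`); then the two alternatives as there.
`T_symm`: `le_antisymm`; each direction: `le_ciInf fun p => ?_` (the walk type is nonempty because
`p` exists: use `haveI : Nonempty _ := ⟨p.reverse⟩` first, or `ciInf_le`-style rewriting with the
equivalence `p ↦ p.reverse`: `Equiv.iInf_congr`), `T ω x y ≤ wt ω p.reverse = wt ω p`
(`ciInf_le (OrderBot.bddBelow _) p.reverse`, `wt_reverse`).  If the walk type from `y` to `x` is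
empty then so is the one from `x` to `y` (`SimpleGraph.Walk.reverse`), and both sides are the
same `iInf` over an empty type (`iInf_of_isEmpty` / `Real.iInf_of_isEmpty`-style; simplest: show
`T ω x y = T ω y x` through `Equiv.iInf_congr` with the equivalence
`⟨SimpleGraph.Walk.reverse, SimpleGraph.Walk.reverse, SimpleGraph.Walk.reverse_reverse,
SimpleGraph.Walk.reverse_reverse⟩` and `wt_reverse`, which needs no case split).
`isBigeodesic_reverse`: injective: `hv.1` and `neg_injective`.  Adjacent: `v (-i)` and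
`v (-(i + 1))`: `(hv.2.1 (-(i + 1))).symm` after `-(i + 1) + 1 = -i`.  Sums: for `i < j`,
`∑ n ∈ Finset.Ico i j, ω s(v (-n), v (-(n + 1))) = ∑ m ∈ Finset.Ico (-j) (-i), ω s(v m, v (m + 1))`
by the bijection `n ↦ -(n + 1)` (`Finset.sum_nbij'` with inverse `m ↦ -(m + 1)`; `Sym2.eq_swap`
for `s(v (m + 1), v m) = s(v m, v (m + 1))`), which is `T ω (v (-j)) (v (-i))` by `hv.2.2`, and
`T_symm`.
-/

open MeasureTheory
open scoped NNReal

namespace Vale.Agent.H43.P158

theorem ends_exists (v : ℕ → ℤ × ℤ) (hv : Function.Injective v) (k : ℕ)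
    (hk : ∀ n, |dd (v n)| ≤ k) (m : ℕ) : ∃ n, (m : ℤ) < |hh (v n)| := by
  by_contra hcon
  have hcon' : ∀ n, |hh (v n)| ≤ (m : ℤ) := fun n => not_lt.mp (fun h => hcon ⟨n, h⟩)
  have hsub : Set.range v ⊆
      ((Finset.Icc (-((m : ℤ) + k)) ((m : ℤ) + k) ×ˢ
        Finset.Icc (-((m : ℤ) + k)) ((m : ℤ) + k) : Finset (ℤ × ℤ)) : Set (ℤ × ℤ)) := by
    rintro u ⟨n, rfl⟩
    have h1 := abs_le.mp (hk n)
    have h2 := abs_le.mp (hcon' n)
    simp only [dd, hh] at h1 h2
    simp only [Finset.coe_product, Finset.coe_Icc, Set.mem_prod, Set.mem_Icc]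
    refine ⟨⟨?_, ?_⟩, ⟨?_, ?_⟩⟩ <;> omega
  exact (Set.Finite.subset (Finset.finite_toSet _) hsub).not_infinite
    (Set.infinite_range_of_injective hv)

theorem unbounded_nat (v : ℕ → ℤ × ℤ) (hv : Function.Injective v) (k : ℕ)
    (hk : ∀ n, |dd (v n)| ≤ k) :
    (∀ m : ℤ, ∃ n, m < hh (v n)) ∨ (∀ m : ℤ, ∃ n, hh (v n) < m) := by
  by_cases h : ∀ m : ℤ, ∃ n, m < hh (v n)
  · exact Or.inl h
  · right
    obtain ⟨m₁, hm₁'⟩ := not_forall.mp h
    have hm₁ : ∀ n, hh (v n) ≤ m₁ := fun n => not_lt.mp (fun hlt => hm₁' ⟨n, hlt⟩)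
    intro m
    obtain ⟨n, hn⟩ := ends_exists v hv k hk (max |m| |m₁|).toNat
    refine ⟨n, ?_⟩
    have h0 : max |m| |m₁| ≤ ((max |m| |m₁|).toNat : ℤ) := Int.self_le_toNat _
    have h1 : |m| ≤ max |m| |m₁| := le_max_left _ _
    have h2 : |m₁| ≤ max |m| |m₁| := le_max_right _ _
    have h3 := hm₁ n
    have h4 : m₁ ≤ |m₁| := le_abs_self m₁
    have h5 : -|m| ≤ m := neg_abs_le m
    rcases abs_cases (hh (v n)) with ⟨h6, _⟩ | ⟨h6, _⟩
    · rw [h6] at hn
      omega
    · rw [h6] at hn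
      omega

theorem T_symm (ω : Sym2 (ℤ × ℤ) → ℝ≥0) (x y : ℤ × ℤ) : T ω x y = T ω y x := by
  unfold T
  exact Equiv.iInf_congr ⟨SimpleGraph.Walk.reverse, SimpleGraph.Walk.reverse,
    SimpleGraph.Walk.reverse_reverse, SimpleGraph.Walk.reverse_reverse⟩
    (fun p => wt_reverse ω p)

theorem isBigeodesic_reverse (ω : Sym2 (ℤ × ℤ) → ℝ≥0) (v : ℤ → ℤ × ℤ)
    (hv : IsBigeodesic ω v) : IsBigeodesic ω (fun n => v (-n)) := by
  obtain ⟨hinj, hadj, hsum⟩ := hv
  refine ⟨hinj.comp neg_injective, ?_, ?_⟩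
  · intro i
    have h := hadj (-(i + 1))
    have e : -(i + 1) + 1 = -i := by ring
    rw [e] at h
    exact h.symm
  · intro i j hij
    have h1 : ∑ n ∈ Finset.Ico i j, ω s(v (-n), v (-(n + 1))) =
        ∑ m ∈ Finset.Ico (-j) (-i), ω s(v m, v (m + 1)) := by
      refine Finset.sum_nbij' (fun n => -(n + 1)) (fun m => -(m + 1)) ?_ ?_ ?_ ?_ ?_
      · intro n hn
        rw [Finset.mem_Ico] at hn ⊢
        constructor <;> omega
      · intro m hm
        rw [Finset.mem_Ico] at hm ⊢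
        constructor <;> omega
      · intro n _
        ring
      · intro m _
        ring
      · intro n _
        have e : -(n + 1) + 1 = -n := by ring
        rw [e, Sym2.eq_swap]
    show ∑ n ∈ Finset.Ico i j, ω s(v (-n), v (-(n + 1))) = T ω (v (-i)) (v (-j))
    rw [h1, hsum (-j) (-i) (neg_lt_neg hij), T_symm]

end Vale.Agent.H43.P158
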