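import Vale.Agent.H43.P158.Strip
import Vale.Agent.H43.P158.Law
import Vale.Agent.H43.P158.BoxBC

/-!
# P158: no bigeodesic stays in a diagonal strip (final statement, proved from the rows)

`final_statement`: for a law `G` on `[0, ∞)` that is not a point mass, almost surely every
bigeodesic `v` has `sup |x - y| = ∞` along `v`.
-/

open MeasureTheory
open scoped NNReal ENNReal

namespace Vale.Agent.H43.P158

theorem main_ctr_disjoint (M : ℤ) (hM : 0 ≤ M) (m n : ℕ) (h : m ≠ n) :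
    Disjoint ((sq M (ctr M m)).sym2) ((sq M (ctr M n)).sym2) := by
  apply sq_sym2_disjoint
  unfold ctr
  have h0 : ((m : ℤ) + 1) * (2 * M + 1) - ((n : ℤ) + 1) * (2 * M + 1)
      = ((m : ℤ) - n) * (2 * M + 1) := by ring
  rw [h0, abs_mul, abs_of_pos (by linarith : (0 : ℤ) < 2 * M + 1)]
  have h1 : (1 : ℤ) ≤ |(m : ℤ) - n| := by
    have h2 : (m : ℤ) - n ≠ 0 := by omega
    exact Int.one_le_abs h2
  nlinarith

theorem main_ctr_neg_disjoint (M : ℤ) (hM : 0 ≤ M) (m n : ℕ) (h : m ≠ n) :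
    Disjoint ((sq M (-(ctr M m))).sym2) ((sq M (-(ctr M n))).sym2) := by
  apply sq_sym2_disjoint
  unfold ctr
  have h0 : -(((m : ℤ) + 1) * (2 * M + 1)) - -(((n : ℤ) + 1) * (2 * M + 1))
      = ((n : ℤ) - m) * (2 * M + 1) := by ring
  rw [h0, abs_mul, abs_of_pos (by linarith : (0 : ℤ) < 2 * M + 1)]
  have h1 : (1 : ℤ) ≤ |(n : ℤ) - m| := by
    have h2 : (n : ℤ) - m ≠ 0 := by omega
    exact Int.one_le_abs h2
  nlinarith

theorem main_blocks_ae (G : Measure ℝ≥0) [IsProbabilityMeasure G] (lo hi : ℝ≥0)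
    (h1 : 0 < G (Set.Iic lo)) (h2 : 0 < G (Set.Ici hi)) (k A : ℕ) (M : ℤ) (hM : 0 ≤ M) :
    ∀ᵐ ω ∂(Measure.infinitePi (fun _ : Sym2 (ℤ × ℤ) => G)),
      (∀ n₀ : ℕ, ∃ n, n₀ ≤ n ∧ Blocked k A M (ctr M n) lo hi ω) ∧
      (∀ n₀ : ℕ, ∃ n, n₀ ≤ n ∧ Blocked k A M (-(ctr M n)) lo hi ω) := by
  obtain ⟨N, hN⟩ := card_sq_sym2_le M
  have hq : 0 < min (G (Set.Iic lo)) (G (Set.Ici hi)) := lt_min h1 h2
  have hp := box_io G (fun n => (sq M (ctr M n)).sym2)
    (fun m n h => main_ctr_disjoint M hM m n h)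
    (fun n e => tgt k A (ctr M n) lo hi e) (fun n e => measurableSet_tgt k A _ lo hi e)
    N (fun n => hN _) _ hq (fun n e => le_measure_tgt G k A _ lo hi e)
  have hn := box_io G (fun n => (sq M (-(ctr M n))).sym2)
    (fun m n h => main_ctr_neg_disjoint M hM m n h)
    (fun n e => tgt k A (-(ctr M n)) lo hi e) (fun n e => measurableSet_tgt k A _ lo hi e)
    N (fun n => hN _) _ hq (fun n e => le_measure_tgt G k A _ lo hi e)
  filter_upwards [hp, hn] with ω hω1 hω2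
  exact ⟨hω1, hω2⟩

/-- For a law on `[0, ∞)` that is not a point mass, almost surely no bigeodesic of first-passage
percolation on `ℤ²` stays within bounded distance of the diagonal. -/
theorem final_statement (G : Measure ℝ≥0) [IsProbabilityMeasure G] (hG : ∀ c, G {c} < 1) :
    ∀ᵐ ω ∂(Measure.infinitePi (fun _ : Sym2 (ℤ × ℤ) => G)),
      ∀ v : ℤ → ℤ × ℤ, IsBigeodesic ω v → ∀ k : ℕ, ∃ i, (k : ℤ) < |(v i).1 - (v i).2| := by
  obtain ⟨lo, hi, hlt, h1, h2⟩ := exists_lo_hi G hG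
  have key : ∀ k : ℕ, ∀ᵐ ω ∂(Measure.infinitePi (fun _ : Sym2 (ℤ × ℤ) => G)),
      ∀ v : ℤ → ℤ × ℤ, IsBigeodesic ω v → ∃ i, (k : ℤ) < |(v i).1 - (v i).2| := by
    intro k
    obtain ⟨A, hA, hpar⟩ := exists_A lo hi hlt k
    have hM : (0 : ℤ) ≤ (A : ℤ) + 4 * k + 4 := by positivity
    filter_upwards [main_blocks_ae G lo hi h1 h2 k A ((A : ℤ) + 4 * k + 4) hM] with ω hω v hv
    exact no_strip_bigeodesic k A _ rfl hA lo hi hpar ω hω.1 hω.2 v hv
  rw [← ae_all_iff] at key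
  filter_upwards [key] with ω hω v hv k
  exact hω k v hv

end Vale.Agent.H43.P158
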