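import Vale.Agent.H43.P158.Strip
import Vale.Agent.H43.P158.Ends

/-!
# P158, row R12 (StripEnd): blocked slabs far out on both sides exclude a bigeodesic END in the strip

TASK R12: replace the placeholder, keep the statement exactly; helper lemmas in this file with
names starting `stripend_`.  Uses `unbounded_nat`, `crossing_up`, `crossing_down`, `detour`,
`segment_contra`, `hh_step` as black boxes.  The proof is the forward half of the proof of
`no_strip_bigeodesic` (Strip.lean, on main: read it first and copy its steps) with the base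
index `i₀` in place of `0`.
Recipe.  By contradiction: `hk : ∀ i, i₀ ≤ i → |dd (v i)| ≤ k`.  `f := fun n => hh (v n)` has
`|f (n + 1) - f n| = 1` (`hh_step (hv.2.1 n)`).  The ray `r := fun n : ℕ => v (i₀ + n)` is
injective (`hv.1`, `Nat.cast_injective` / `omega`) and `|dd (r n)| ≤ k`.  `unbounded_nat r`:
Case 1 (`∀ m, ∃ n, m < hh (r n)`).  Take `n₀ := (|f i₀| + A).toNat`, get `n ≥ n₀` with the block
`c := ctr M n` blocked (`hpos`); `ctr M n = (n + 1) * (2 M + 1) ≥ n + 1`, so `l := 2 c - A > f i₀`.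
Take `t'` with `l + 2 A < hh (r t')`, `t := i₀ + t'`; then `i₀ < t` (if `t' = 0` then
`f i₀ > l`).  `crossing_up f _ i₀ t l (2 A)` gives `i₀ ≤ i < j ≤ t` with `f i = l`,
`f j = l + 2 A`, the piece between the levels; `detour` from `u = v i` to `z = v j` gives `p`;
`segment_contra` with `hin`: for `i ≤ n ≤ j`, `InSlab k A c (v n)`, i.e. `|dd (v n)| ≤ k`
(`hk n` as `i₀ ≤ i ≤ n`) and `2 c - A ≤ f n ≤ 2 c + A`.
Case 2 (`∀ m, ∃ n, hh (r n) < m`): the mirror image with the blocks `c := - ctr M n` from `hneg`,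
`l := 2 c - A`, `l + 2 A = 2 c + A < f i₀`, `t'` with `hh (r t') < l`; `crossing_down f _ i₀ t l
(2 A)` gives `i < j` with `f i = l + 2 A`, `f j = l`; `detour` from `u = v j` to `z = v i` gives
`p`; use `p.reverse` (`wt_reverse`); `segment_contra`.
-/

open MeasureTheory
open scoped NNReal

namespace Vale.Agent.H43.P158

/-- An upward crossing of a blocked slab is impossible for a bigeodesic that stays in the strip
from the index `a` on. -/
theorem stripend_up (k A : ℕ) (M c : ℤ) (hM : M = A + 4 * k + 4) (hA : 1 ≤ A) (lo hi : ℝ≥0)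
    (hpar : ((2 * A + 8 * k + 4 : ℕ) : ℝ≥0) * lo < ((2 * A : ℕ) : ℝ≥0) * hi)
    (ω : Sym2 (ℤ × ℤ) → ℝ≥0) (hB : Blocked k A M c lo hi ω)
    (v : ℤ → ℤ × ℤ) (hv : IsBigeodesic ω v) (a b : ℤ) (hk : ∀ n, a ≤ n → |dd (v n)| ≤ k)
    (hab : a < b) (ha : hh (v a) ≤ 2 * c - A) (hb : 2 * c + A ≤ hh (v b)) : False := by
  have hf : ∀ n, |(fun n => hh (v n)) (n + 1) - (fun n => hh (v n)) n| = 1 :=
    fun n => hh_step (hv.2.1 n)
  have hcr := crossing_up (fun n => hh (v n)) hf a b (2 * c - A) (2 * A) hab (by omega) ha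
    (show 2 * c - (A : ℤ) + 2 * (A : ℤ) ≤ hh (v b) by linarith)
  obtain ⟨i, j, hai, hij, _, hfi, hfj, hmid, hlen⟩ := hcr
  have hfi' : hh (v i) = 2 * c - A := hfi
  have hfj' : hh (v j) = 2 * c + A := by
    have h : hh (v j) = 2 * c - (A : ℤ) + 2 * (A : ℤ) := hfj
    rw [h]
    ring
  obtain ⟨p, hp⟩ := detour k A M c hM lo hi ω hB (v i) (v j) (hk i hai) (hk j (by omega))
    hfi' hfj'
  refine segment_contra k A M c hM lo hi hpar ω hB v hv i j hij hlen ?_ p hp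
  intro n hn1 hn2
  have h := hmid n hn1 hn2
  have h1 : 2 * c - (A : ℤ) ≤ hh (v n) := h.1
  have h2 : hh (v n) ≤ 2 * c - (A : ℤ) + 2 * (A : ℤ) := h.2
  exact ⟨hk n (by omega), h1, by linarith⟩

/-- A downward crossing of a blocked slab is impossible for a bigeodesic that stays in the strip
from the index `a` on. -/
theorem stripend_down (k A : ℕ) (M c : ℤ) (hM : M = A + 4 * k + 4) (hA : 1 ≤ A) (lo hi : ℝ≥0)
    (hpar : ((2 * A + 8 * k + 4 : ℕ) : ℝ≥0) * lo < ((2 * A : ℕ) : ℝ≥0) * hi)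
    (ω : Sym2 (ℤ × ℤ) → ℝ≥0) (hB : Blocked k A M c lo hi ω)
    (v : ℤ → ℤ × ℤ) (hv : IsBigeodesic ω v) (a b : ℤ) (hk : ∀ n, a ≤ n → |dd (v n)| ≤ k)
    (hab : a < b) (ha : 2 * c + A ≤ hh (v a)) (hb : hh (v b) ≤ 2 * c - A) : False := by
  have hf : ∀ n, |(fun n => hh (v n)) (n + 1) - (fun n => hh (v n)) n| = 1 :=
    fun n => hh_step (hv.2.1 n)
  have hcr := crossing_down (fun n => hh (v n)) hf a b (2 * c - A) (2 * A) hab (by omega)
    (show 2 * c - (A : ℤ) + 2 * (A : ℤ) ≤ hh (v a) by linarith) hb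
  obtain ⟨i, j, hai, hij, _, hfi, hfj, hmid, hlen⟩ := hcr
  have hfj' : hh (v j) = 2 * c - A := hfj
  have hfi' : hh (v i) = 2 * c + A := by
    have h : hh (v i) = 2 * c - (A : ℤ) + 2 * (A : ℤ) := hfi
    rw [h]
    ring
  obtain ⟨p, hp⟩ := detour k A M c hM lo hi ω hB (v j) (v i) (hk j (by omega)) (hk i hai)
    hfj' hfi'
  have hp' : wt ω p.reverse ≤ ((2 * A + 8 * k + 4 : ℕ) : ℝ≥0) * lo := by
    rw [wt_reverse]
    exact hp
  refine segment_contra k A M c hM lo hi hpar ω hB v hv i j hij hlen ?_ p.reverse hp'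
  intro n hn1 hn2
  have h := hmid n hn1 hn2
  have h1 : 2 * c - (A : ℤ) ≤ hh (v n) := h.1
  have h2 : hh (v n) ≤ 2 * c - (A : ℤ) + 2 * (A : ℤ) := h.2
  exact ⟨hk n (by omega), h1, by linarith⟩

theorem no_strip_end (k A : ℕ) (M : ℤ) (hM : M = A + 4 * k + 4) (hA : 1 ≤ A)
    (lo hi : ℝ≥0)
    (hpar : ((2 * A + 8 * k + 4 : ℕ) : ℝ≥0) * lo < ((2 * A : ℕ) : ℝ≥0) * hi)
    (ω : Sym2 (ℤ × ℤ) → ℝ≥0)
    (hpos : ∀ n₀ : ℕ, ∃ n, n₀ ≤ n ∧ Blocked k A M (ctr M n) lo hi ω)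
    (hneg : ∀ n₀ : ℕ, ∃ n, n₀ ≤ n ∧ Blocked k A M (-(ctr M n)) lo hi ω)
    (v : ℤ → ℤ × ℤ) (hv : IsBigeodesic ω v) (i₀ : ℤ) :
    ∃ i, i₀ ≤ i ∧ (k : ℤ) < |dd (v i)| := by
  by_contra hcon
  push Not at hcon
  have hA0 : (0 : ℤ) ≤ (A : ℤ) := Int.natCast_nonneg A
  have hk0 : (0 : ℤ) ≤ (k : ℤ) := Int.natCast_nonneg k
  have hM0 : 0 ≤ M := by
    rw [hM]
    linarith
  have hctr : ∀ n : ℕ, (n : ℤ) + 1 ≤ ctr M n := by
    intro n
    have hn0 : (0 : ℤ) ≤ (n : ℤ) + 1 := by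
      have := Int.natCast_nonneg n
      linarith
    unfold ctr
    nlinarith [mul_nonneg hn0 hM0]
  have habs1 := le_abs_self (hh (v i₀))
  have habs2 := neg_abs_le (hh (v i₀))
  have habs0 := abs_nonneg (hh (v i₀))
  have hinj : Function.Injective (fun n : ℕ => v (i₀ + (n : ℤ))) := by
    intro m n h
    have h' : i₀ + (m : ℤ) = i₀ + (n : ℤ) := hv.1 h
    have h'' : (m : ℤ) = (n : ℤ) := by linarith
    exact_mod_cast h''
  have hrk : ∀ n : ℕ, |dd ((fun n : ℕ => v (i₀ + (n : ℤ))) n)| ≤ k := by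
    intro n
    have hn0 : (0 : ℤ) ≤ (n : ℤ) := Int.natCast_nonneg n
    exact hcon (i₀ + (n : ℤ)) (by linarith)
  rcases unbounded_nat (fun n : ℕ => v (i₀ + (n : ℤ))) hinj k hrk with hup | hdn
  · obtain ⟨n, hn, hB⟩ := hpos (|hh (v i₀)| + A).toNat
    have hn' : |hh (v i₀)| + (A : ℤ) ≤ (n : ℤ) := Int.toNat_le.1 hn
    have hc := hctr n
    obtain ⟨t', ht⟩ := hup (2 * ctr M n + A)
    have ht' : 2 * ctr M n + (A : ℤ) < hh (v (i₀ + (t' : ℤ))) := ht
    have ht0 : i₀ < i₀ + (t' : ℤ) := by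
      rcases Nat.eq_zero_or_pos t' with h | h
      · subst h
        rw [Nat.cast_zero, add_zero] at ht'
        linarith
      · have h1 : (0 : ℤ) < (t' : ℤ) := by exact_mod_cast h
        linarith
    exact stripend_up k A M (ctr M n) hM hA lo hi hpar ω hB v hv i₀ (i₀ + (t' : ℤ)) hcon ht0
      (by linarith) (by linarith)
  · obtain ⟨n, hn, hB⟩ := hneg (|hh (v i₀)| + A).toNat
    have hn' : |hh (v i₀)| + (A : ℤ) ≤ (n : ℤ) := Int.toNat_le.1 hn
    have hc := hctr n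
    obtain ⟨t', ht⟩ := hdn (2 * (-(ctr M n)) - A)
    have ht' : hh (v (i₀ + (t' : ℤ))) < 2 * (-(ctr M n)) - (A : ℤ) := ht
    have ht0 : i₀ < i₀ + (t' : ℤ) := by
      rcases Nat.eq_zero_or_pos t' with h | h
      · subst h
        rw [Nat.cast_zero, add_zero] at ht'
        linarith
      · have h1 : (0 : ℤ) < (t' : ℤ) := by exact_mod_cast h
        linarith
    exact stripend_down k A M (-(ctr M n)) hM hA lo hi hpar ω hB v hv i₀ (i₀ + (t' : ℤ)) hcon ht0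
      (by linarith) (by linarith)

end Vale.Agent.H43.P158
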