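import Vale.Agent.H43.P158.Main
import Vale.Agent.H43.P158.StripEnd

/-!
# P158: no END of a bigeodesic stays in a diagonal strip (final statement, proved from the rows)

`final_statement_ends`: for a law `G` on `[0, ∞)` that is not a point mass, almost surely every
bigeodesic `v` leaves every diagonal strip `|x - y| ≤ k` along both of its ends: for every `i₀`
there are `i ≥ i₀` and `i' ≤ i₀` with `|x - y| > k` at `v i` and at `v i'`.
-/

open MeasureTheory
open scoped NNReal ENNReal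

namespace Vale.Agent.H43.P158

/-- For a law on `[0, ∞)` that is not a point mass, almost surely neither end of a bigeodesic of
first-passage percolation on `ℤ²` stays within bounded distance of the diagonal. -/
theorem final_statement_ends (G : Measure ℝ≥0) [IsProbabilityMeasure G] (hG : ∀ c, G {c} < 1) :
    ∀ᵐ ω ∂(Measure.infinitePi (fun _ : Sym2 (ℤ × ℤ) => G)),
      ∀ v : ℤ → ℤ × ℤ, IsBigeodesic ω v → ∀ (k : ℕ) (i₀ : ℤ),
        (∃ i, i₀ ≤ i ∧ (k : ℤ) < |(v i).1 - (v i).2|) ∧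
        (∃ i, i ≤ i₀ ∧ (k : ℤ) < |(v i).1 - (v i).2|) := by
  obtain ⟨lo, hi, hlt, h1, h2⟩ := exists_lo_hi G hG
  have key : ∀ k : ℕ, ∀ᵐ ω ∂(Measure.infinitePi (fun _ : Sym2 (ℤ × ℤ) => G)),
      ∀ v : ℤ → ℤ × ℤ, IsBigeodesic ω v → ∀ i₀ : ℤ,
        (∃ i, i₀ ≤ i ∧ (k : ℤ) < |(v i).1 - (v i).2|) ∧
        (∃ i, i ≤ i₀ ∧ (k : ℤ) < |(v i).1 - (v i).2|) := by
    intro k
    obtain ⟨A, hA, hpar⟩ := exists_A lo hi hlt k
    have hM : (0 : ℤ) ≤ (A : ℤ) + 4 * k + 4 := by positivity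
    filter_upwards [main_blocks_ae G lo hi h1 h2 k A ((A : ℤ) + 4 * k + 4) hM] with ω hω v hv i₀
    constructor
    · exact no_strip_end k A _ rfl hA lo hi hpar ω hω.1 hω.2 v hv i₀
    · obtain ⟨i, hi0, hlt'⟩ := no_strip_end k A _ rfl hA lo hi hpar ω hω.1 hω.2
        (fun n => v (-n)) (isBigeodesic_reverse ω v hv) (-i₀)
      exact ⟨-i, by omega, hlt'⟩
  rw [← ae_all_iff] at key
  filter_upwards [key] with ω hω v hv k i₀
  exact hω k v hv i₀

end Vale.Agent.H43.P158
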