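import Vale.Agent.H43.P158.WalkBasic
import Vale.Agent.H43.P158.Block

/-!
# P158, row R9 (Segment): a piece of a bigeodesic cannot cross a blocked slab

TASK R9: replace the placeholder, keep the statement exactly; helper lemmas in this file with
names starting `seg_`.  Uses `T_le_wt` (WalkBasic.lean), `slab_mem_sq`, `blocked_slab` (Block.lean)
as black boxes.
Recipe.  For `n ∈ Finset.Ico i j` both `v n` and `v (n + 1)` are slab vertices (`hin`), hence in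
`sq M c` (`slab_mem_sq`), so `hi ≤ ω s(v n, v (n + 1))` (`blocked_slab`).  Hence
`(Finset.Ico i j).card • hi ≤ ∑ n ∈ Finset.Ico i j, ω s(v n, v (n + 1))`
(`Finset.card_nsmul_le_sum`), `(Finset.Ico i j).card = (j - i).toNat` (`Int.card_Ico`) `≥ 2 * A`,
so `(2 * A) * hi ≤ ∑`.  By `hv.2.2 i j hij` the sum equals `T ω (v i) (v j) ≤ wt ω p ≤
(2 A + 8 k + 4) * lo < (2 * A) * hi`: contradiction (`lt_irrefl`).
-/

open MeasureTheory
open scoped NNReal

namespace Vale.Agent.H43.P158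

theorem segment_contra (k A : ℕ) (M c : ℤ) (hM : M = A + 4 * k + 4) (lo hi : ℝ≥0)
    (hpar : ((2 * A + 8 * k + 4 : ℕ) : ℝ≥0) * lo < ((2 * A : ℕ) : ℝ≥0) * hi)
    (ω : Sym2 (ℤ × ℤ) → ℝ≥0) (hB : Blocked k A M c lo hi ω)
    (v : ℤ → ℤ × ℤ) (hv : IsBigeodesic ω v) (i j : ℤ) (hij : i < j)
    (hL : (2 * A : ℤ) ≤ j - i) (hin : ∀ n, i ≤ n → n ≤ j → InSlab k A c (v n))
    (p : Z2.Walk (v i) (v j)) (hp : wt ω p ≤ ((2 * A + 8 * k + 4 : ℕ) : ℝ≥0) * lo) : False := by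
  have hedge : ∀ n ∈ Finset.Ico i j, hi ≤ ω s(v n, v (n + 1)) := by
    intro n hn
    rw [Finset.mem_Ico] at hn
    have h1 := hin n hn.1 (by omega)
    have h2 := hin (n + 1) (by omega) (by omega)
    exact blocked_slab hB (slab_mem_sq k A M c hM _ h1) (slab_mem_sq k A M c hM _ h2) h1 h2
  have hsum : (Finset.Ico i j).card • hi ≤ ∑ n ∈ Finset.Ico i j, ω s(v n, v (n + 1)) :=
    Finset.card_nsmul_le_sum _ _ _ hedge
  have hcard : 2 * A ≤ (Finset.Ico i j).card := by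
    rw [Int.card_Ico]
    omega
  have h3 : ((2 * A : ℕ) : ℝ≥0) * hi ≤ ∑ n ∈ Finset.Ico i j, ω s(v n, v (n + 1)) := by
    calc ((2 * A : ℕ) : ℝ≥0) * hi ≤ ((Finset.Ico i j).card : ℝ≥0) * hi :=
          mul_le_mul_of_nonneg_right (Nat.cast_le.mpr hcard) (by positivity)
      _ = (Finset.Ico i j).card • hi := by rw [nsmul_eq_mul]
      _ ≤ ∑ n ∈ Finset.Ico i j, ω s(v n, v (n + 1)) := hsum
  rw [hv.2.2 i j hij] at h3
  have h4 := (h3.trans (T_le_wt ω p)).trans hp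
  exact lt_irrefl _ (hpar.trans_le h4)

end Vale.Agent.H43.P158
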