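import Vale.Agent.H43.P158.Inner

/-!
# P158, row R8 (Unbounded): an injective sequence in a diagonal strip is unbounded along the strip

TASK R8: replace the placeholder, keep the statement exactly; helper lemmas in this file with
names starting `unb_`.
Recipe.  For `m : ℕ` the set `{u | |dd u| ≤ k ∧ |hh u| ≤ m}` is finite: it is contained in the
finset `Finset.Icc (-(m + k)) (m + k) ×ˢ Finset.Icc (-(m + k)) (m + k)` (`2 u.1 = hh u + dd u`,
`2 u.2 = hh u - dd u`).  `v` is injective on the infinite type `ℤ`, so not all `v n` lie in it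
(`Set.infinite_range_of_injective`, `Set.Finite.subset`, or `Finite.of_injective` on a map into
the finset): `∀ m : ℕ, ∃ n, m < |hh (v n)|`.  If the first alternative fails there is `m₁` with
`hh (v n) ≤ m₁` for all `n`; given `m`, take `n` with `|hh (v n)| > max |m| |m₁|` (as a natural:
`(max |m| |m₁|).toNat`); then `hh (v n) < m`.
-/

namespace Vale.Agent.H43.P158

theorem unb_exists (v : ℤ → ℤ × ℤ) (hv : Function.Injective v) (k : ℕ)
    (hk : ∀ n, |dd (v n)| ≤ k) (m : ℕ) : ∃ n, (m : ℤ) < |hh (v n)| := by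
  by_contra hcon
  push Not at hcon
  have hsub : Set.range v ⊆
      ((Finset.Icc (-((m : ℤ) + k)) ((m : ℤ) + k) ×ˢ
        Finset.Icc (-((m : ℤ) + k)) ((m : ℤ) + k) : Finset (ℤ × ℤ)) : Set (ℤ × ℤ)) := by
    rintro u ⟨n, rfl⟩
    have h1 := abs_le.mp (hk n)
    have h2 := abs_le.mp (hcon n)
    simp only [dd, hh] at h1 h2
    simp only [Finset.coe_product, Finset.coe_Icc, Set.mem_prod, Set.mem_Icc]
    refine ⟨⟨?_, ?_⟩, ⟨?_, ?_⟩⟩ <;> omega
  exact (Set.Finite.subset (Finset.finite_toSet _) hsub).not_infinite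
    (Set.infinite_range_of_injective hv)

theorem unbounded (v : ℤ → ℤ × ℤ) (hv : Function.Injective v) (k : ℕ)
    (hk : ∀ n, |dd (v n)| ≤ k) :
    (∀ m : ℤ, ∃ n, m < hh (v n)) ∨ (∀ m : ℤ, ∃ n, hh (v n) < m) := by
  by_cases h : ∀ m : ℤ, ∃ n, m < hh (v n)
  · exact Or.inl h
  · right
    push Not at h
    obtain ⟨m₁, hm₁⟩ := h
    intro m
    obtain ⟨n, hn⟩ := unb_exists v hv k hk (max |m| |m₁|).toNat
    refine ⟨n, ?_⟩
    have h0 : max |m| |m₁| ≤ ((max |m| |m₁|).toNat : ℤ) := Int.self_le_toNat _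
    have h1 : |m| ≤ max |m| |m₁| := le_max_left _ _
    have h2 : |m₁| ≤ max |m| |m₁| := le_max_right _ _
    have h3 := hm₁ n
    have h4 : m₁ ≤ |m₁| := le_abs_self m₁
    have h5 : -|m| ≤ m := neg_abs_le m
    rcases abs_cases (hh (v n)) with ⟨h6, _⟩ | ⟨h6, _⟩
    · rw [h6] at hn
      omega
    · rw [h6] at hn
      omega

end Vale.Agent.H43.P158
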