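import Vale.Agent.H43.P158.Detour
import Vale.Agent.H43.P158.Crossing
import Vale.Agent.H43.P158.Unbounded
import Vale.Agent.H43.P158.Segment

/-!
# P158, row R10 (Strip): blocked slabs far out on both sides exclude a bigeodesic in the strip

TASK R10: replace the placeholder, keep the statement exactly; helper lemmas in this file with
names starting `strip_`.  Uses `unbounded`, `crossing_up`, `crossing_down`, `detour`,
`wt_reverse`, `segment_contra`, `hh_step` as black boxes.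
Recipe.  By contradiction: `hk : ∀ n, |dd (v n)| ≤ k`.  `f := fun n => hh (v n)` has
`|f (n + 1) - f n| = 1` (`hh_step (hv.2.1 n)`).  `ctr M n = (n + 1) * (2 M + 1) ≥ n + 1`
(`M ≥ 0`).  Write `L = 2 A` (`L ≥ 1` as `A ≥ 1`).
Case 1 (`unbounded`: `∀ m, ∃ n, m < f n`).  Take `n₀ := (|f 0| + A).toNat`, get `n ≥ n₀` with the
block `c := ctr M n` blocked; then `l := 2 c - A > f 0`.  Take `t` with `l + L < f t`; `t ≠ 0`.
* `t > 0`: `crossing_up f _ 0 t l L` gives `i < j` with `f i = l`, `f j = l + L`, the piece in the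
  slab; `detour` from `u = v i` to `z = v j` gives `p`; `segment_contra`.
* `t < 0`: `crossing_down f _ t 0 l L` gives `i < j` with `f i = l + L`, `f j = l`; `detour` from
  `u = v j` to `z = v i` gives `p`; use `p.reverse` (`wt_reverse`); `segment_contra`.
Case 2 (`∀ m, ∃ n, f n < m`): the mirror image with the blocks `c := - ctr M n` from `hneg`,
`l := 2 c - A`, `l + L = 2 c + A < f 0`, `t` with `f t < l`; `t > 0`: `crossing_down` on
`[0, t]`; `t < 0`: `crossing_up` on `[t, 0]`.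
In all four cases the hypothesis `hin` of `segment_contra` is: for `i ≤ n ≤ j`,
`InSlab k A c (v n)`, i.e. `|dd (v n)| ≤ k` (`hk n`) and `2 c - A ≤ f n ≤ 2 c + A` (from the
crossing lemma, `l = 2 c - A`, `l + L = 2 c + A`), and `hL` is `L ≤ j - i`.
-/

open MeasureTheory
open scoped NNReal

namespace Vale.Agent.H43.P158

/-- An upward crossing of a blocked slab is impossible for a bigeodesic in the strip. -/
theorem strip_up (k A : ℕ) (M c : ℤ) (hM : M = A + 4 * k + 4) (hA : 1 ≤ A) (lo hi : ℝ≥0)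
    (hpar : ((2 * A + 8 * k + 4 : ℕ) : ℝ≥0) * lo < ((2 * A : ℕ) : ℝ≥0) * hi)
    (ω : Sym2 (ℤ × ℤ) → ℝ≥0) (hB : Blocked k A M c lo hi ω)
    (v : ℤ → ℤ × ℤ) (hv : IsBigeodesic ω v) (hk : ∀ n, |dd (v n)| ≤ k) (a b : ℤ) (hab : a < b)
    (ha : hh (v a) ≤ 2 * c - A) (hb : 2 * c + A ≤ hh (v b)) : False := by
  have hf : ∀ n, |(fun n => hh (v n)) (n + 1) - (fun n => hh (v n)) n| = 1 :=
    fun n => hh_step (hv.2.1 n)
  have hcr := crossing_up (fun n => hh (v n)) hf a b (2 * c - A) (2 * A) hab (by omega) ha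
    (show 2 * c - (A : ℤ) + 2 * (A : ℤ) ≤ hh (v b) by linarith)
  obtain ⟨i, j, _, hij, _, hfi, hfj, hmid, hlen⟩ := hcr
  have hfi' : hh (v i) = 2 * c - A := hfi
  have hfj' : hh (v j) = 2 * c + A := by
    have h : hh (v j) = 2 * c - (A : ℤ) + 2 * (A : ℤ) := hfj
    rw [h]
    ring
  obtain ⟨p, hp⟩ := detour k A M c hM lo hi ω hB (v i) (v j) (hk i) (hk j) hfi' hfj'
  refine segment_contra k A M c hM lo hi hpar ω hB v hv i j hij hlen ?_ p hp
  intro n hn1 hn2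
  have h := hmid n hn1 hn2
  have h1 : 2 * c - (A : ℤ) ≤ hh (v n) := h.1
  have h2 : hh (v n) ≤ 2 * c - (A : ℤ) + 2 * (A : ℤ) := h.2
  exact ⟨hk n, h1, by linarith⟩

/-- A downward crossing of a blocked slab is impossible for a bigeodesic in the strip. -/
theorem strip_down (k A : ℕ) (M c : ℤ) (hM : M = A + 4 * k + 4) (hA : 1 ≤ A) (lo hi : ℝ≥0)
    (hpar : ((2 * A + 8 * k + 4 : ℕ) : ℝ≥0) * lo < ((2 * A : ℕ) : ℝ≥0) * hi)
    (ω : Sym2 (ℤ × ℤ) → ℝ≥0) (hB : Blocked k A M c lo hi ω)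
    (v : ℤ → ℤ × ℤ) (hv : IsBigeodesic ω v) (hk : ∀ n, |dd (v n)| ≤ k) (a b : ℤ) (hab : a < b)
    (ha : 2 * c + A ≤ hh (v a)) (hb : hh (v b) ≤ 2 * c - A) : False := by
  have hf : ∀ n, |(fun n => hh (v n)) (n + 1) - (fun n => hh (v n)) n| = 1 :=
    fun n => hh_step (hv.2.1 n)
  have hcr := crossing_down (fun n => hh (v n)) hf a b (2 * c - A) (2 * A) hab (by omega)
    (show 2 * c - (A : ℤ) + 2 * (A : ℤ) ≤ hh (v a) by linarith) hb
  obtain ⟨i, j, _, hij, _, hfi, hfj, hmid, hlen⟩ := hcr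
  have hfj' : hh (v j) = 2 * c - A := hfj
  have hfi' : hh (v i) = 2 * c + A := by
    have h : hh (v i) = 2 * c - (A : ℤ) + 2 * (A : ℤ) := hfi
    rw [h]
    ring
  obtain ⟨p, hp⟩ := detour k A M c hM lo hi ω hB (v j) (v i) (hk j) (hk i) hfj' hfi'
  have hp' : wt ω p.reverse ≤ ((2 * A + 8 * k + 4 : ℕ) : ℝ≥0) * lo := by
    rw [wt_reverse]
    exact hp
  refine segment_contra k A M c hM lo hi hpar ω hB v hv i j hij hlen ?_ p.reverse hp'
  intro n hn1 hn2
  have h := hmid n hn1 hn2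
  have h1 : 2 * c - (A : ℤ) ≤ hh (v n) := h.1
  have h2 : hh (v n) ≤ 2 * c - (A : ℤ) + 2 * (A : ℤ) := h.2
  exact ⟨hk n, h1, by linarith⟩

theorem no_strip_bigeodesic (k A : ℕ) (M : ℤ) (hM : M = A + 4 * k + 4) (hA : 1 ≤ A)
    (lo hi : ℝ≥0)
    (hpar : ((2 * A + 8 * k + 4 : ℕ) : ℝ≥0) * lo < ((2 * A : ℕ) : ℝ≥0) * hi)
    (ω : Sym2 (ℤ × ℤ) → ℝ≥0)
    (hpos : ∀ n₀ : ℕ, ∃ n, n₀ ≤ n ∧ Blocked k A M (ctr M n) lo hi ω)
    (hneg : ∀ n₀ : ℕ, ∃ n, n₀ ≤ n ∧ Blocked k A M (-(ctr M n)) lo hi ω)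
    (v : ℤ → ℤ × ℤ) (hv : IsBigeodesic ω v) : ∃ i, (k : ℤ) < |dd (v i)| := by
  by_contra hcon
  push Not at hcon
  have hA0 : (0 : ℤ) ≤ (A : ℤ) := Int.natCast_nonneg A
  have hk0 : (0 : ℤ) ≤ (k : ℤ) := Int.natCast_nonneg k
  have hM0 : 0 ≤ M := by
    rw [hM]
    linarith
  have hctr : ∀ n : ℕ, (n : ℤ) + 1 ≤ ctr M n := by
    intro n
    have hn0 : (0 : ℤ) ≤ (n : ℤ) + 1 := by
      have := Int.natCast_nonneg n
      linarith
    unfold ctr
    nlinarith [mul_nonneg hn0 hM0]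
  have habs1 := le_abs_self (hh (v 0))
  have habs2 := neg_abs_le (hh (v 0))
  have habs0 := abs_nonneg (hh (v 0))
  rcases unbounded v hv.1 k hcon with hup | hdn
  · obtain ⟨n, hn, hB⟩ := hpos (|hh (v 0)| + A).toNat
    have hn' : |hh (v 0)| + (A : ℤ) ≤ (n : ℤ) := Int.toNat_le.1 hn
    have hc := hctr n
    obtain ⟨t, ht⟩ := hup (2 * ctr M n + A)
    rcases lt_trichotomy t 0 with h | h | h
    · exact strip_down k A M (ctr M n) hM hA lo hi hpar ω hB v hv hcon t 0 h (by linarith)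
        (by linarith)
    · rw [h] at ht
      linarith
    · exact strip_up k A M (ctr M n) hM hA lo hi hpar ω hB v hv hcon 0 t h (by linarith)
        (by linarith)
  · obtain ⟨n, hn, hB⟩ := hneg (|hh (v 0)| + A).toNat
    have hn' : |hh (v 0)| + (A : ℤ) ≤ (n : ℤ) := Int.toNat_le.1 hn
    have hc := hctr n
    obtain ⟨t, ht⟩ := hdn (2 * (-(ctr M n)) - A)
    rcases lt_trichotomy t 0 with h | h | h
    · exact strip_up k A M (-(ctr M n)) hM hA lo hi hpar ω hB v hv hcon t 0 h (by linarith)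
        (by linarith)
    · rw [h] at ht
      linarith
    · exact strip_down k A M (-(ctr M n)) hM hA lo hi hpar ω hB v hv hcon 0 t h (by linarith)
        (by linarith)

end Vale.Agent.H43.P158
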