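import Vale.Agent.H43.P158.Defs

/-!
# P158, row R1 (WalkBasic): weights of walks, passage time below the weight of any walk

TASK R1: replace every placeholder, keep the statements exactly; helper lemmas in this file with
names starting `walk_`.
Recipe.  `wt ω p = (p.edges.map ω).sum`: `SimpleGraph.Walk.edges_nil`, `edges_cons`,
`edges_append`, `edges_reverse` with `List.map_append`, `List.sum_append`, `List.map_reverse`,
`List.sum_reverse`.  `T_le_wt`: `ciInf_le (OrderBot.bddBelow _) p`.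
`chain_walk`: induction on `n`; step: the walk for `n` appended with the one-edge walk
`SimpleGraph.Walk.cons hadj SimpleGraph.Walk.nil` from `c n` to `c (n + 1)`
(`wt_append`, `wt_cons`, `wt_nil`), and `(n + 1) * lo = n * lo + lo`.
-/

open MeasureTheory
open scoped NNReal

namespace Vale.Agent.H43.P158

theorem wt_nil (ω : Sym2 (ℤ × ℤ) → ℝ≥0) (x : ℤ × ℤ) :
    wt ω (SimpleGraph.Walk.nil : Z2.Walk x x) = 0 := by
  unfold wt
  rw [SimpleGraph.Walk.edges_nil, List.map_nil, List.sum_nil]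

theorem wt_cons (ω : Sym2 (ℤ × ℤ) → ℝ≥0) {x y z : ℤ × ℤ} (h : Z2.Adj x y) (p : Z2.Walk y z) :
    wt ω (SimpleGraph.Walk.cons h p) = ω s(x, y) + wt ω p := by
  unfold wt
  rw [SimpleGraph.Walk.edges_cons, List.map_cons, List.sum_cons]

theorem wt_append (ω : Sym2 (ℤ × ℤ) → ℝ≥0) {x y z : ℤ × ℤ} (p : Z2.Walk x y) (q : Z2.Walk y z) :
    wt ω (p.append q) = wt ω p + wt ω q := by
  unfold wt
  rw [SimpleGraph.Walk.edges_append, List.map_append, List.sum_append]

theorem wt_reverse (ω : Sym2 (ℤ × ℤ) → ℝ≥0) {x y : ℤ × ℤ} (p : Z2.Walk x y) :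
    wt ω p.reverse = wt ω p := by
  unfold wt
  rw [SimpleGraph.Walk.edges_reverse, List.map_reverse, List.sum_reverse]

theorem T_le_wt (ω : Sym2 (ℤ × ℤ) → ℝ≥0) {x y : ℤ × ℤ} (p : Z2.Walk x y) :
    T ω x y ≤ wt ω p := by
  unfold T
  exact ciInf_le (OrderBot.bddBelow _) p

theorem chain_walk (ω : Sym2 (ℤ × ℤ) → ℝ≥0) (lo : ℝ≥0) (c : ℕ → ℤ × ℤ) (n : ℕ)
    (h : ∀ i, i < n → Z2.Adj (c i) (c (i + 1)) ∧ ω s(c i, c (i + 1)) ≤ lo) :
    ∃ p : Z2.Walk (c 0) (c n), wt ω p ≤ (n : ℝ≥0) * lo := by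
  induction n with
  | zero =>
    refine ⟨SimpleGraph.Walk.nil, ?_⟩
    rw [wt_nil]
    exact zero_le
  | succ n ih =>
    obtain ⟨p, hp⟩ := ih (fun i hi => h i (Nat.lt_succ_of_lt hi))
    obtain ⟨hadj, hw⟩ := h n (Nat.lt_succ_self n)
    refine ⟨p.append (SimpleGraph.Walk.cons hadj SimpleGraph.Walk.nil), ?_⟩
    rw [wt_append, wt_cons, wt_nil, add_zero]
    have walk_cast : ((n + 1 : ℕ) : ℝ≥0) * lo = (n : ℝ≥0) * lo + lo := by
      push_cast
      ring
    rw [walk_cast]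
    exact add_le_add hp hw

end Vale.Agent.H43.P158
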